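import Mathlib

/-!
# P262: definitions

Signed prefix sums of a finite sequence of vectors of the Euclidean space `ℝ^d`, and the
constants `σ(d,N)` and `σ(d)` of the problem, as extended nonnegative reals.
-/

namespace Vale.Agent.Lib.P262

open scoped ENNReal

/-- The signed prefix sum `∑_{i < k} ε_i v_i` (indices `i = 0, …, N-1`; `k = 0` gives `0`). -/
noncomputable def prefixSum {d N : ℕ} (v : Fin N → EuclideanSpace ℝ (Fin d)) (ε : Fin N → ℝ)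
    (k : ℕ) : EuclideanSpace ℝ (Fin d) :=
  ∑ i ∈ Finset.univ.filter (fun i : Fin N => i.val < k), ε i • v i

/-- `σ(d,N) = sup_{v_1,…,v_N ∈ B_2^d} min_{ε ∈ {-1,1}^N} max_{0 ≤ k ≤ N} ‖∑_{i ≤ k} ε_i v_i‖₂`. -/
noncomputable def sigmaN (d N : ℕ) : ℝ≥0∞ :=
  ⨆ (v : Fin N → EuclideanSpace ℝ (Fin d)) (_ : ∀ i, ‖v i‖ ≤ 1),
    ⨅ (ε : Fin N → ℝ) (_ : ∀ i, ε i = 1 ∨ ε i = -1),
      ⨆ (k : ℕ) (_ : k ≤ N), ENNReal.ofReal ‖prefixSum v ε k‖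

/-- `σ(d) = sup_{N ≥ 1} σ(d,N)`. -/
noncomputable def sigma (d : ℕ) : ℝ≥0∞ :=
  ⨆ (N : ℕ) (_ : 1 ≤ N), sigmaN d N

end Vale.Agent.Lib.P262
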