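import Vale.Agent.Lib.P262.Gadget

/-!
# P262: checking explicit integer examples in `ℝ^3`
-/

namespace Vale.Agent.Lib.P262

open scoped ENNReal RealInnerProductSpace

/-- integer version of `Forces` in dimension three (all coordinates are multiplied by `D`) -/
def forcesZ : List (ℤ × ℤ × ℤ) → ℤ → ℤ → ℤ → ℤ → Bool
  | [], x, y, z, A => decide (A ≤ x * x + y * y + z * z)
  | w :: l, x, y, z, A => decide (A ≤ x * x + y * y + z * z) ||
      (forcesZ l (x + w.1) (y + w.2.1) (z + w.2.2) A &&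
        forcesZ l (x - w.1) (y - w.2.1) (z - w.2.2) A)

/-- the point `(x,y,z)/D` of `ℝ^3` -/
noncomputable def emb (D : ℝ) (w : ℤ × ℤ × ℤ) : EuclideanSpace ℝ (Fin 3) :=
  !₂[(w.1 : ℝ) / D, (w.2.1 : ℝ) / D, (w.2.2 : ℝ) / D]

theorem norm_emb_sq (D : ℝ) (w : ℤ × ℤ × ℤ) :
    ‖emb D w‖ ^ 2 = ((w.1 * w.1 + w.2.1 * w.2.1 + w.2.2 * w.2.2 : ℤ) : ℝ) / D ^ 2 := by
  rw [EuclideanSpace.norm_sq_eq]
  simp [emb, Fin.sum_univ_three]
  ring

theorem emb_add (D : ℝ) (x y z : ℤ) (w : ℤ × ℤ × ℤ) :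
    emb D (x, y, z) + emb D w = emb D (x + w.1, y + w.2.1, z + w.2.2) := by
  ext i
  fin_cases i <;> simp [emb] <;> ring

theorem emb_sub (D : ℝ) (x y z : ℤ) (w : ℤ × ℤ × ℤ) :
    emb D (x, y, z) - emb D w = emb D (x - w.1, y - w.2.1, z - w.2.2) := by
  ext i
  fin_cases i <;> simp [emb] <;> ring

theorem forces_of_forcesZ (D : ℝ) (hD : 0 < D) (A : ℤ) (l : List (ℤ × ℤ × ℤ)) :
    ∀ x y z : ℤ, forcesZ l x y z A = true →
      Forces (l.map (emb D)) (emb D (x, y, z)) ((A : ℝ) / D ^ 2) := by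
  have hD2 : 0 < D ^ 2 := by positivity
  have hbase : ∀ x y z : ℤ, A ≤ x * x + y * y + z * z →
      (A : ℝ) / D ^ 2 ≤ ‖emb D (x, y, z)‖ ^ 2 := by
    intro x y z h
    rw [norm_emb_sq]
    exact div_le_div_of_nonneg_right (by exact_mod_cast h) hD2.le
  induction l with
  | nil =>
    intro x y z h
    simp only [forcesZ, decide_eq_true_eq] at h
    exact hbase x y z h
  | cons w l ih =>
    intro x y z h
    simp only [forcesZ, Bool.or_eq_true, decide_eq_true_eq, Bool.and_eq_true] at h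
    rcases h with h | ⟨h1, h2⟩
    · exact Or.inl (hbase x y z h)
    · refine Or.inr ⟨?_, ?_⟩
      · rw [emb_add]; exact ih _ _ _ h1
      · rw [emb_sub]; exact ih _ _ _ h2

theorem attain_of_forcesZ (D : ℕ) (hD : 0 < D) (A : ℤ) (l : List (ℤ × ℤ × ℤ))
    (hl : l.all (fun w => decide (w.1 * w.1 + w.2.1 * w.2.1 + w.2.2 * w.2.2 ≤ (D : ℤ) * D)) = true)
    (h : forcesZ l 0 0 0 A = true) : Attain 3 l.length ((A : ℝ) / (D : ℝ) ^ 2) := by
  have hD' : (0 : ℝ) < D := by exact_mod_cast hD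
  refine ⟨l.map (emb D), by simp, ?_, ?_⟩
  · intro u hu
    obtain ⟨w, hw, rfl⟩ := List.mem_map.mp hu
    have h1 := (List.all_eq_true.mp hl) w hw
    simp only [decide_eq_true_eq] at h1
    have h2 : ‖emb D w‖ ^ 2 ≤ 1 := by
      rw [norm_emb_sq, div_le_one (by positivity)]
      have : ((w.1 * w.1 + w.2.1 * w.2.1 + w.2.2 * w.2.2 : ℤ) : ℝ) ≤ (((D : ℤ) * D : ℤ) : ℝ) := by
        exact_mod_cast h1
      calc _ ≤ (((D : ℤ) * D : ℤ) : ℝ) := this
        _ = (D : ℝ) ^ 2 := by push_cast; ring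
    have h3 : ‖emb D w‖ ^ 2 ≤ 1 ^ 2 := by simpa using h2
    exact (pow_le_pow_iff_left₀ (norm_nonneg _) zero_le_one two_ne_zero).mp h3
  · have h0 : (0 : EuclideanSpace ℝ (Fin 3)) = emb D (0, 0, 0) := by
      ext i
      fin_cases i <;> simp [emb]
    rw [h0]
    exact forces_of_forcesZ D hD' A l 0 0 0 h

end Vale.Agent.Lib.P262
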