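import Vale.Agent.Lib.P262.Defs

/-!
# P262: the forcing relation

`Forces l x a` says: starting from the point `x`, whatever signs are chosen for the vectors of the
list `l`, some partial sum `x ± l_1 ± … ± l_k` has squared norm at least `a`.
-/

namespace Vale.Agent.Lib.P262

open scoped ENNReal RealInnerProductSpace

section general

variable {E : Type*} [NormedAddCommGroup E] [InnerProductSpace ℝ E]

set_option linter.unusedSectionVars false

/-- all sign choices lead to a partial sum of squared norm at least `a` -/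
def Forces : List E → E → ℝ → Prop
  | [], x, a => a ≤ ‖x‖ ^ 2
  | u :: l, x, a => a ≤ ‖x‖ ^ 2 ∨ (Forces l (x + u) a ∧ Forces l (x - u) a)

theorem Forces.of_le {l : List E} {x : E} {a : ℝ} (h : a ≤ ‖x‖ ^ 2) : Forces l x a := by
  cases l with
  | nil => exact h
  | cons u l => exact Or.inl h

theorem Forces.mono {l : List E} {x : E} {a b : ℝ} (hab : b ≤ a) (h : Forces l x a) :
    Forces l x b := by
  induction l generalizing x with
  | nil => exact le_trans hab h
  | cons u l ih =>
    rcases h with h | ⟨h1, h2⟩
    · exact Or.inl (le_trans hab h)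
    · exact Or.inr ⟨ih h1, ih h2⟩

theorem Forces.neg {l : List E} {x : E} {a : ℝ} (h : Forces l x a) : Forces l (-x) a := by
  induction l generalizing x with
  | nil => simpa [Forces] using h
  | cons u l ih =>
    rcases h with h | ⟨h1, h2⟩
    · exact Or.inl (by simpa using h)
    · refine Or.inr ⟨?_, ?_⟩
      · have := ih h2
        rwa [neg_sub, sub_eq_neg_add] at this
      · have := ih h1
        rwa [neg_add, ← sub_eq_add_neg] at this

/-- adding an orthogonal vector `y` -/
theorem Forces.add_orth {l : List E} {x y : E} {a : ℝ} (h : Forces l x a)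
    (hx : ⟪y, x⟫ = 0) (hl : ∀ u ∈ l, ⟪y, u⟫ = 0) : Forces l (x + y) (a + ‖y‖ ^ 2) := by
  induction l generalizing x with
  | nil =>
    have h' : a ≤ ‖x‖ ^ 2 := h
    show a + ‖y‖ ^ 2 ≤ ‖x + y‖ ^ 2
    rw [norm_add_sq_real, real_inner_comm, hx]
    linarith
  | cons u l ih =>
    have hu : ⟪y, u⟫ = 0 := hl u (by simp)
    have hl' : ∀ w ∈ l, ⟪y, w⟫ = 0 := fun w hw => hl w (by simp [hw])
    rcases h with h | ⟨h1, h2⟩
    · refine Or.inl ?_
      rw [norm_add_sq_real, real_inner_comm, hx]
      linarith
    · refine Or.inr ⟨?_, ?_⟩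
      · have := ih h1 (by rw [inner_add_right, hx, hu, add_zero]) hl'
        rwa [add_right_comm] at this
      · have := ih h2 (by rw [inner_sub_right, hx, hu, sub_zero]) hl'
        rwa [sub_add_eq_add_sub] at this

/-- transport along a norm preserving additive map -/
theorem Forces.map {F : Type*} [NormedAddCommGroup F] [InnerProductSpace ℝ F]
    (f : E →ₗᵢ[ℝ] F) {l : List E} {x : E} {a : ℝ} (h : Forces l x a) :
    Forces (l.map f) (f x) a := by
  induction l generalizing x with
  | nil => simpa [Forces] using h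
  | cons u l ih =>
    rcases h with h | ⟨h1, h2⟩
    · exact Or.inl (by simpa using h)
    · refine Or.inr ⟨?_, ?_⟩
      · simpa using ih h1
      · simpa using ih h2

/-- unfolding `Forces` into a statement on sign sequences -/
theorem Forces.exists_prefix {l : List E} {x : E} {a : ℝ} (h : Forces l x a)
    (ε : Fin l.length → ℝ) (hε : ∀ i, ε i = 1 ∨ ε i = -1) :
    ∃ k ≤ l.length,
      a ≤ ‖x + ∑ i ∈ Finset.univ.filter (fun i : Fin l.length => i.val < k), ε i • l.get i‖ ^ 2 := by
  induction l generalizing x with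
  | nil => exact ⟨0, le_refl _, by simpa [Forces] using h⟩
  | cons u l ih =>
    rcases h with h | ⟨h1, h2⟩
    · exact ⟨0, Nat.zero_le _, by simpa using h⟩
    · have key : ∀ k : ℕ, ∑ i ∈ Finset.univ.filter (fun i : Fin (u :: l).length => i.val < k + 1),
          ε i • (u :: l).get i = ε ⟨0, by simp⟩ • u +
          ∑ i ∈ Finset.univ.filter (fun i : Fin l.length => i.val < k),
            ε (Fin.succ i) • l.get i := by
        intro k
        rw [Finset.sum_filter, Finset.sum_filter]
        have := Fin.sum_univ_succ (n := l.length)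
          (fun i : Fin (l.length + 1) => if i.val < k + 1 then ε i • (u :: l).get i else 0)
        rw [show (∑ i : Fin (u :: l).length, if i.val < k + 1 then ε i • (u :: l).get i else 0)
          = ∑ i : Fin (l.length + 1), if i.val < k + 1 then ε i • (u :: l).get i else 0 from rfl,
          this]
        simp
      rcases hε ⟨0, by simp⟩ with h0 | h0
      · obtain ⟨k, hk, hk'⟩ := ih h1 (fun i => ε (Fin.succ i)) (fun i => hε _)
        refine ⟨k + 1, by simpa using hk, ?_⟩
        rw [key k, h0, one_smul, ← add_assoc]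
        exact hk'
      · obtain ⟨k, hk, hk'⟩ := ih h2 (fun i => ε (Fin.succ i)) (fun i => hε _)
        refine ⟨k + 1, by simpa using hk, ?_⟩
        rw [key k, h0, neg_one_smul, ← add_assoc, ← sub_eq_add_neg]
        exact hk'

end general

/-- `Attain d N a`: some sequence of `N` vectors of the unit ball of `ℝ^d` forces squared norm `a`. -/
def Attain (d N : ℕ) (a : ℝ) : Prop :=
  ∃ l : List (EuclideanSpace ℝ (Fin d)), l.length = N ∧ (∀ u ∈ l, ‖u‖ ≤ 1) ∧ Forces l 0 a

theorem Attain.le_sigmaN {d N : ℕ} {a : ℝ} (h : Attain d N a) :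
    ENNReal.ofReal (Real.sqrt a) ≤ sigmaN d N := by
  obtain ⟨l, rfl, hl, hf⟩ := h
  unfold sigmaN
  refine le_iSup₂_of_le (fun i => l.get i) (fun i => hl _ (List.get_mem _ _)) ?_
  refine le_iInf₂ fun ε hε => ?_
  obtain ⟨k, hk, hk'⟩ := hf.exists_prefix ε hε
  refine le_iSup₂_of_le k hk ?_
  refine ENNReal.ofReal_le_ofReal ?_
  rw [Real.sqrt_le_iff]
  refine ⟨norm_nonneg _, ?_⟩
  rw [zero_add] at hk'
  exact hk'

end Vale.Agent.Lib.P262
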