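import Vale.Agent.Lib.P262.Three

/-!
# P262: dimension four, `σ(4) ≤ √10`

Merging strategy with at most four groups.  Key lemma: among five vectors of the unit ball of `ℝ⁴`
some signed sum of at least two of them has norm at most `1`.  Write a linear dependence as
`p + t₁ w₁ + ... + t₄ w₄ = 0` with `0 ≤ tᵢ ≤ 1`.  If `t₁ + ... + t₄ ≤ 2` then
`∑ tᵢ (‖p + wᵢ‖² - 1) = (∑ tᵢ - 2) ‖p‖² - ∑ tᵢ (1 - ‖wᵢ‖²) ≤ 0`; otherwise the same identity is used
for `q = p + w₁ + ... + w₄ = ∑ (1 - tᵢ) wᵢ` and the sums `q - wᵢ`.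
-/

namespace Vale.Agent.Lib.P262

open scoped ENNReal RealInnerProductSpace

abbrev E4 := EuclideanSpace ℝ (Fin 4)

section general

variable {E : Type*} [NormedAddCommGroup E] [InnerProductSpace ℝ E]

theorem norm_sq_expand4 (p b1 b2 b3 b4 : E) (x1 x2 x3 x4 : ℝ) :
    ‖p + x1 • b1 + x2 • b2 + x3 • b3 + x4 • b4‖ ^ 2 =
      ‖p‖ ^ 2 + x1 ^ 2 * ‖b1‖ ^ 2 + x2 ^ 2 * ‖b2‖ ^ 2 + x3 ^ 2 * ‖b3‖ ^ 2 + x4 ^ 2 * ‖b4‖ ^ 2
        + 2 * x1 * ⟪p, b1⟫ + 2 * x2 * ⟪p, b2⟫ + 2 * x3 * ⟪p, b3⟫ + 2 * x4 * ⟪p, b4⟫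
        + 2 * (x1 * x2) * ⟪b1, b2⟫ + 2 * (x1 * x3) * ⟪b1, b3⟫ + 2 * (x1 * x4) * ⟪b1, b4⟫
        + 2 * (x2 * x3) * ⟪b2, b3⟫ + 2 * (x2 * x4) * ⟪b2, b4⟫ + 2 * (x3 * x4) * ⟪b3, b4⟫ := by
  simp only [← real_inner_self_eq_norm_sq, inner_add_left, inner_add_right, inner_smul_left,
    inner_smul_right, conj_trivial]
  rw [real_inner_comm p b1, real_inner_comm p b2, real_inner_comm p b3, real_inner_comm p b4,
    real_inner_comm b1 b2, real_inner_comm b1 b3, real_inner_comm b1 b4, real_inner_comm b2 b3,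
    real_inner_comm b2 b4, real_inner_comm b3 b4]
  ring

/-- the weighted identity: if `p + ∑ tᵢ wᵢ = 0` with `∑ tᵢ ≤ 2` then `p = 0` or some `p + wᵢ` is short -/
theorem coreA (p w1 w2 w3 w4 : E) (t1 t2 t3 t4 : ℝ)
    (h1 : ‖w1‖ ≤ 1) (h2 : ‖w2‖ ≤ 1) (h3 : ‖w3‖ ≤ 1) (h4 : ‖w4‖ ≤ 1)
    (a1 : 0 ≤ t1) (a2 : 0 ≤ t2) (a3 : 0 ≤ t3) (a4 : 0 ≤ t4) (hs : t1 + t2 + t3 + t4 ≤ 2)
    (hdep : p + t1 • w1 + t2 • w2 + t3 • w3 + t4 • w4 = 0) :
    p = 0 ∨ ‖p + w1‖ ≤ 1 ∨ ‖p + w2‖ ≤ 1 ∨ ‖p + w3‖ ≤ 1 ∨ ‖p + w4‖ ≤ 1 := by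
  by_contra hcon
  push Not at hcon
  obtain ⟨hp, c1, c2, c3, c4⟩ := hcon
  have hin : ⟪p, p + t1 • w1 + t2 • w2 + t3 • w3 + t4 • w4⟫ = 0 := by
    rw [hdep, inner_zero_right]
  simp only [inner_add_right, inner_smul_right, real_inner_self_eq_norm_sq] at hin
  have ex : ∀ w : E, ‖p + w‖ ^ 2 = ‖p‖ ^ 2 + 2 * ⟪p, w⟫ + ‖w‖ ^ 2 := fun w =>
    norm_add_sq_real p w
  have sq1 : ∀ w : E, 1 < ‖p + w‖ → 1 < ‖p + w‖ ^ 2 := fun w h => by nlinarith
  have d1 := sq1 _ c1
  have d2 := sq1 _ c2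
  have d3 := sq1 _ c3
  have d4 := sq1 _ c4
  rw [ex] at d1 d2 d3 d4
  have n1 := sq_le_one_of_norm h1
  have n2 := sq_le_one_of_norm h2
  have n3 := sq_le_one_of_norm h3
  have n4 := sq_le_one_of_norm h4
  have hP : 0 < ‖p‖ ^ 2 := by
    have := norm_pos_iff.mpr hp
    positivity
  -- the weighted sum
  have m1 := mul_nonneg a1 (sub_nonneg.mpr d1.le)
  have m2 := mul_nonneg a2 (sub_nonneg.mpr d2.le)
  have m3 := mul_nonneg a3 (sub_nonneg.mpr d3.le)
  have m4 := mul_nonneg a4 (sub_nonneg.mpr d4.le)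
  have k1 := mul_nonneg a1 (sub_nonneg.mpr n1)
  have k2 := mul_nonneg a2 (sub_nonneg.mpr n2)
  have k3 := mul_nonneg a3 (sub_nonneg.mpr n3)
  have k4 := mul_nonneg a4 (sub_nonneg.mpr n4)
  have k5 := mul_nonneg (sub_nonneg.mpr hs) hP.le
  -- all the products vanish, so all `tᵢ` vanish
  have z1 : t1 = 0 := by
    by_contra h
    have := mul_pos (lt_of_le_of_ne a1 (Ne.symm h)) (sub_pos.mpr d1)
    nlinarith
  have z2 : t2 = 0 := by
    by_contra h
    have := mul_pos (lt_of_le_of_ne a2 (Ne.symm h)) (sub_pos.mpr d2)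
    nlinarith
  have z3 : t3 = 0 := by
    by_contra h
    have := mul_pos (lt_of_le_of_ne a3 (Ne.symm h)) (sub_pos.mpr d3)
    nlinarith
  have z4 : t4 = 0 := by
    by_contra h
    have := mul_pos (lt_of_le_of_ne a4 (Ne.symm h)) (sub_pos.mpr d4)
    nlinarith
  rw [z1, z2, z3, z4] at hin
  nlinarith

/-- rounding a dependence among five vectors -/
theorem core4 (p w1 w2 w3 w4 : E) (t1 t2 t3 t4 : ℝ) (hp : p ≠ 0)
    (h1 : ‖w1‖ ≤ 1) (h2 : ‖w2‖ ≤ 1) (h3 : ‖w3‖ ≤ 1) (h4 : ‖w4‖ ≤ 1)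
    (a1 : 0 ≤ t1) (b1 : t1 ≤ 1) (a2 : 0 ≤ t2) (b2 : t2 ≤ 1) (a3 : 0 ≤ t3) (b3 : t3 ≤ 1)
    (a4 : 0 ≤ t4) (b4 : t4 ≤ 1)
    (hdep : p + t1 • w1 + t2 • w2 + t3 • w3 + t4 • w4 = 0) :
    ∃ x1 x2 x3 x4 : ℝ, (x1 = 0 ∨ x1 = 1) ∧ (x2 = 0 ∨ x2 = 1) ∧ (x3 = 0 ∨ x3 = 1) ∧
      (x4 = 0 ∨ x4 = 1) ∧ (x1 = 1 ∨ x2 = 1 ∨ x3 = 1 ∨ x4 = 1) ∧
      ‖p + x1 • w1 + x2 • w2 + x3 • w3 + x4 • w4‖ ≤ 1 := by
  rcases le_total (t1 + t2 + t3 + t4) 2 with hs | hs
  · rcases coreA p w1 w2 w3 w4 t1 t2 t3 t4 h1 h2 h3 h4 a1 a2 a3 a4 hs hdep with h | h | h | h | h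
    · exact absurd h hp
    · exact ⟨1, 0, 0, 0, by simp, by simp, by simp, by simp, by simp, by simpa using h⟩
    · exact ⟨0, 1, 0, 0, by simp, by simp, by simp, by simp, by simp, by simpa using h⟩
    · exact ⟨0, 0, 1, 0, by simp, by simp, by simp, by simp, by simp, by simpa using h⟩
    · exact ⟨0, 0, 0, 1, by simp, by simp, by simp, by simp, by simp, by simpa using h⟩
  · have hdep' : -(p + w1 + w2 + w3 + w4) + (1 - t1) • w1 + (1 - t2) • w2 + (1 - t3) • w3
        + (1 - t4) • w4 = 0 := by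
      have : -(p + w1 + w2 + w3 + w4) + (1 - t1) • w1 + (1 - t2) • w2 + (1 - t3) • w3
        + (1 - t4) • w4 = -(p + t1 • w1 + t2 • w2 + t3 • w3 + t4 • w4) := by
        simp only [sub_smul, one_smul]
        abel
      rw [this, hdep, neg_zero]
    rcases coreA (-(p + w1 + w2 + w3 + w4)) w1 w2 w3 w4 (1 - t1) (1 - t2) (1 - t3) (1 - t4)
      h1 h2 h3 h4 (by linarith) (by linarith) (by linarith) (by linarith) (by linarith) hdep'
      with h | h | h | h | h
    · refine ⟨1, 1, 1, 1, by simp, by simp, by simp, by simp, by simp, ?_⟩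
      simp only [one_smul]
      rw [neg_eq_zero.mp h]
      simp
    · refine ⟨0, 1, 1, 1, by simp, by simp, by simp, by simp, by simp, ?_⟩
      simp only [one_smul, zero_smul, add_zero]
      have e : -(p + w2 + w3 + w4) = -(p + w1 + w2 + w3 + w4) + w1 := by abel
      rw [← norm_neg, e]
      exact h
    · refine ⟨1, 0, 1, 1, by simp, by simp, by simp, by simp, by simp, ?_⟩
      simp only [one_smul, zero_smul, add_zero]
      have e : -(p + w1 + w3 + w4) = -(p + w1 + w2 + w3 + w4) + w2 := by abel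
      rw [← norm_neg, e]
      exact h
    · refine ⟨1, 1, 0, 1, by simp, by simp, by simp, by simp, by simp, ?_⟩
      simp only [one_smul, zero_smul, add_zero]
      have e : -(p + w1 + w2 + w4) = -(p + w1 + w2 + w3 + w4) + w3 := by abel
      rw [← norm_neg, e]
      exact h
    · refine ⟨1, 1, 1, 0, by simp, by simp, by simp, by simp, by simp, ?_⟩
      simp only [one_smul, zero_smul, add_zero]
      have e : -(p + w1 + w2 + w3) = -(p + w1 + w2 + w3 + w4) + w4 := by abel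
      rw [← norm_neg, e]
      exact h

end general

theorem exists_dep5 (u : Fin 5 → E4) : ∃ c : Fin 5 → ℝ, ∑ i, c i • u i = 0 ∧ ∃ i, c i ≠ 0 := by
  have h : ¬ LinearIndependent ℝ u := by
    intro hli
    have h1 := hli.fintype_card_le_finrank
    simp at h1
  exact Fintype.not_linearIndependent_iff.mp h

theorem others5 : ∀ i0 : Fin 5, ∃ k1 k2 k3 k4 : Fin 5, k1 ≠ i0 ∧ k2 ≠ i0 ∧ k3 ≠ i0 ∧ k4 ≠ i0 ∧
    k2 ≠ k1 ∧ k3 ≠ k1 ∧ k3 ≠ k2 ∧ k4 ≠ k1 ∧ k4 ≠ k2 ∧ k4 ≠ k3 ∧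
    ∀ f : Fin 5 → E4, ∑ i, f i = f i0 + f k1 + f k2 + f k3 + f k4
  | 0 => ⟨1, 2, 3, 4, by decide, by decide, by decide, by decide, by decide, by decide, by decide,
      by decide, by decide, by decide, fun f => by rw [Fin.sum_univ_five]⟩
  | 1 => ⟨0, 2, 3, 4, by decide, by decide, by decide, by decide, by decide, by decide, by decide,
      by decide, by decide, by decide, fun f => by rw [Fin.sum_univ_five]; abel⟩
  | 2 => ⟨0, 1, 3, 4, by decide, by decide, by decide, by decide, by decide, by decide, by decide,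
      by decide, by decide, by decide, fun f => by rw [Fin.sum_univ_five]; abel⟩
  | 3 => ⟨0, 1, 2, 4, by decide, by decide, by decide, by decide, by decide, by decide, by decide,
      by decide, by decide, by decide, fun f => by rw [Fin.sum_univ_five]; abel⟩
  | 4 => ⟨0, 1, 2, 3, by decide, by decide, by decide, by decide, by decide, by decide, by decide,
      by decide, by decide, by decide, fun f => by rw [Fin.sum_univ_five]; abel⟩

/-- five nonzero vectors of the unit ball of `ℝ⁴`: some signed sum of at least two of them has norm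
at most `1` -/
theorem merge4 (u : Fin 5 → E4) (hu : ∀ i, ‖u i‖ ≤ 1) (hne : ∀ i, u i ≠ 0) :
    ∃ η : Fin 5 → ℝ, (∀ i, η i = 0 ∨ IsSign (η i)) ∧ (∃ j l, j ≠ l ∧ η j ≠ 0 ∧ η l ≠ 0) ∧
      ‖∑ i, η i • u i‖ ≤ 1 := by
  obtain ⟨c, hc, i1, hi1⟩ := exists_dep5 u
  obtain ⟨i0, -, hmax⟩ := Finset.exists_max_image Finset.univ (fun i => |c i|)
    ⟨i1, Finset.mem_univ _⟩
  have hc0 : c i0 ≠ 0 := by
    intro h
    have h1 := hmax i1 (Finset.mem_univ _)
    rw [h, abs_zero] at h1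
    exact hi1 (abs_eq_zero.mp (le_antisymm h1 (abs_nonneg _)))
  obtain ⟨k1, k2, k3, k4, h10, h20, h30, h40, h21, h31, h32, h41, h42, h43, hsum⟩ := others5 i0
  have hl : ∀ k, |c k / c i0| ≤ 1 := by
    intro k
    rw [abs_div, div_le_one (abs_pos.mpr hc0)]
    exact hmax k (Finset.mem_univ _)
  obtain ⟨t1, τ1, a1, b1, hτ1, e1⟩ := exists_abs_sign _ (hl k1)
  obtain ⟨t2, τ2, a2, b2, hτ2, e2⟩ := exists_abs_sign _ (hl k2)
  obtain ⟨t3, τ3, a3, b3, hτ3, e3⟩ := exists_abs_sign _ (hl k3)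
  obtain ⟨t4, τ4, a4, b4, hτ4, e4⟩ := exists_abs_sign _ (hl k4)
  have hdep : u i0 + t1 • (τ1 • u k1) + t2 • (τ2 • u k2) + t3 • (τ3 • u k3)
      + t4 • (τ4 • u k4) = 0 := by
    have h1 := hsum (fun i => c i • u i)
    rw [hc] at h1
    have h2 : (c i0)⁻¹ • (c i0 • u i0 + c k1 • u k1 + c k2 • u k2 + c k3 • u k3
        + c k4 • u k4) = 0 := by
      rw [← h1, smul_zero]
    simp only [smul_add, smul_smul] at h2 ⊢
    rw [inv_mul_cancel₀ hc0, one_smul] at h2
    have f1 : (c i0)⁻¹ * c k1 = t1 * τ1 := by rw [← e1]; field_simp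
    have f2 : (c i0)⁻¹ * c k2 = t2 * τ2 := by rw [← e2]; field_simp
    have f3 : (c i0)⁻¹ * c k3 = t3 * τ3 := by rw [← e3]; field_simp
    have f4 : (c i0)⁻¹ * c k4 = t4 * τ4 := by rw [← e4]; field_simp
    rw [f1, f2, f3, f4] at h2
    exact h2
  have hn : ∀ (τ : ℝ) (k : Fin 5), IsSign τ → ‖τ • u k‖ ≤ 1 := by
    intro τ k hτ
    rw [norm_sign_smul hτ]
    exact hu k
  obtain ⟨x1, x2, x3, x4, hx1, hx2, hx3, hx4, hx, hle⟩ := core4 (u i0) (τ1 • u k1) (τ2 • u k2)
    (τ3 • u k3) (τ4 • u k4) t1 t2 t3 t4 (hne i0) (hn τ1 k1 hτ1) (hn τ2 k2 hτ2) (hn τ3 k3 hτ3)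
    (hn τ4 k4 hτ4) a1 b1 a2 b2 a3 b3 a4 b4 hdep
  refine ⟨fun i => if i = i0 then 1 else if i = k1 then x1 * τ1 else if i = k2 then x2 * τ2
    else if i = k3 then x3 * τ3 else x4 * τ4, ?_, ?_, ?_⟩
  · have hz : ∀ (x τ : ℝ), (x = 0 ∨ x = 1) → IsSign τ → x * τ = 0 ∨ IsSign (x * τ) := by
      intro x τ hx hτ
      rcases hx with rfl | rfl
      · left; ring
      · right; rwa [one_mul]
    intro i
    dsimp only
    split_ifs
    · exact Or.inr (Or.inl rfl)
    · exact hz _ _ hx1 hτ1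
    · exact hz _ _ hx2 hτ2
    · exact hz _ _ hx3 hτ3
    · exact hz _ _ hx4 hτ4
  · rcases hx with rfl | rfl | rfl | rfl
    · refine ⟨i0, k1, h10.symm, by simp, ?_⟩
      simp only [if_neg h10, if_true, one_mul]
      exact hτ1.ne_zero
    · refine ⟨i0, k2, h20.symm, by simp, ?_⟩
      simp only [if_neg h20, if_neg h21, if_true, one_mul]
      exact hτ2.ne_zero
    · refine ⟨i0, k3, h30.symm, by simp, ?_⟩
      simp only [if_neg h30, if_neg h31, if_neg h32, if_true, one_mul]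
      exact hτ3.ne_zero
    · refine ⟨i0, k4, h40.symm, by simp, ?_⟩
      simp only [if_neg h40, if_neg h41, if_neg h42, if_neg h43, one_mul]
      exact hτ4.ne_zero
  · rw [hsum]
    simp only [if_true, if_neg h10, if_neg h20, if_neg h21, if_neg h30, if_neg h31, if_neg h32,
      if_neg h40, if_neg h41, if_neg h42, if_neg h43, one_smul]
    simpa only [smul_smul] using hle

/-- every signed sum of `u'` is a signed sum of `u` -/
def Sub5 (u' u : Fin 5 → E4) : Prop :=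
  ∀ s : Fin 5 → ℝ, (∀ i, IsSign (s i)) → ∃ s' : Fin 5 → ℝ, (∀ i, IsSign (s' i)) ∧
    ∑ i, s i • u' i = ∑ i, s' i • u i

theorem Sub5.refl (u : Fin 5 → E4) : Sub5 u u := fun s hs => ⟨s, hs, rfl⟩

theorem Sub5.trans {u v w : Fin 5 → E4} (h1 : Sub5 u v) (h2 : Sub5 v w) : Sub5 u w := by
  intro s hs
  obtain ⟨s1, hs1, e1⟩ := h1 s hs
  obtain ⟨s2, hs2, e2⟩ := h2 s1 hs1
  exact ⟨s2, hs2, e1.trans e2⟩

/-- merging the slots in the support of `η` into the slot `j` -/
theorem pool_merge5 (u : Fin 5 → E4) (η : Fin 5 → ℝ) (hη : ∀ i, η i = 0 ∨ IsSign (η i))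
    (j l : Fin 5) (hjl : j ≠ l) (hj : η j ≠ 0) (hl : η l ≠ 0) (hu : ∀ i, ‖u i‖ ≤ 1)
    (hw : ‖∑ i, η i • u i‖ ≤ 1) :
    ∃ u' : Fin 5 → E4, (∀ i, ‖u' i‖ ≤ 1) ∧ u' l = 0 ∧ (∀ k, k ≠ j → u' k ≠ 0 → u k ≠ 0) ∧
      Sub5 u' u := by
  refine ⟨fun k => if k = j then ∑ i, η i • u i else if η k = 0 then u k else 0, ?_, ?_, ?_, ?_⟩
  · intro i
    dsimp only
    split_ifs
    · exact hw
    · exact hu i
    · simp
  · simp only [if_neg hjl.symm, if_neg hl]
  · intro k hk h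
    simp only [if_neg hk] at h
    by_cases h0 : η k = 0
    · simpa only [if_pos h0] using h
    · simp only [if_neg h0] at h
      exact absurd rfl h
  · intro s hs
    refine ⟨fun k => if η k = 0 then s k else s j * η k, ?_, ?_⟩
    · intro k
      dsimp only
      split_ifs with h0
      · exact hs k
      · exact (hs j).mul ((hη k).resolve_left h0)
    · have e1 : ∀ k, s k • (if k = j then ∑ i, η i • u i else if η k = 0 then u k else 0)
          = (if k = j then s j • ∑ i, η i • u i else 0) + (if η k = 0 then s k • u k else 0) := by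
        intro k
        by_cases hk : k = j
        · subst hk
          simp [hj]
        · by_cases h0 : η k = 0
          · simp [hk, h0]
          · simp [hk, h0]
      have e2 : ∀ k, (if η k = 0 then s k else s j * η k) • u k
          = s j • (η k • u k) + (if η k = 0 then s k • u k else 0) := by
        intro k
        by_cases h0 : η k = 0
        · simp [h0]
        · simp [h0, smul_smul]
      simp only [e1, e2, Finset.sum_add_distrib, Finset.sum_ite_eq', Finset.mem_univ, if_true,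
        ← Finset.smul_sum]

/-- the slots are pairwise nearly orthogonal -/
def Sep5 (u : Fin 5 → E4) : Prop := ∀ i j, i ≠ j → 2 * |⟪u i, u j⟫| ≤ 1

theorem normalize5 (n : ℕ) : ∀ u : Fin 5 → E4, (∀ i, ‖u i‖ ≤ 1) → (∃ i, u i = 0) →
    (Finset.univ.filter (fun i => u i ≠ 0)).card ≤ n →
    ∃ u' : Fin 5 → E4, (∀ i, ‖u' i‖ ≤ 1) ∧ (∃ i, u' i = 0) ∧ Sep5 u' ∧ Sub5 u' u := by
  induction n with
  | zero =>
    intro u hu hz hcard
    refine ⟨u, hu, hz, ?_, Sub5.refl u⟩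
    intro i j _
    have hi : u i = 0 := by
      by_contra h
      have : i ∈ Finset.univ.filter (fun i => u i ≠ 0) := by simp [h]
      have h2 := Finset.card_pos.mpr ⟨i, this⟩
      omega
    rw [hi, inner_zero_left]
    simp
  | succ n ih =>
    intro u hu hz hcard
    by_cases hsep : Sep5 u
    · exact ⟨u, hu, hz, hsep, Sub5.refl u⟩
    · unfold Sep5 at hsep
      push Not at hsep
      obtain ⟨i, j, hij, hbig⟩ := hsep
      have hui : u i ≠ 0 := by
        intro h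
        rw [h, inner_zero_left] at hbig
        simp at hbig
        linarith
      have huj : u j ≠ 0 := by
        intro h
        rw [h, inner_zero_right] at hbig
        simp at hbig
        linarith
      obtain ⟨τ, hτ, hn⟩ := exists_sign_merge (u i) (u j)
      have hsumη : ∑ k, (if k = i then (1 : ℝ) else if k = j then τ else 0) • u k
          = u i + τ • u j := by
        have e : ∀ k, (if k = i then (1 : ℝ) else if k = j then τ else 0) • u k
            = (if k = i then u i else 0) + (if k = j then τ • u j else 0) := by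
          intro k
          by_cases hk : k = i
          · subst hk
            simp [hij]
          · by_cases hk2 : k = j
            · subst hk2
              simp [hk]
            · simp [hk, hk2]
        simp only [e, Finset.sum_add_distrib, Finset.sum_ite_eq', Finset.mem_univ, if_true]
      obtain ⟨u1, hu1, hz1, hnz1, hsub1⟩ := pool_merge5 u
        (fun k => if k = i then (1 : ℝ) else if k = j then τ else 0)
        (by
          intro k
          split_ifs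
          · exact Or.inr (Or.inl rfl)
          · exact Or.inr hτ
          · exact Or.inl rfl)
        i j hij (by simp) (by simp [hij.symm, hτ.ne_zero]) hu
        (by
          rw [hsumη]
          apply norm_le_one_of_sq
          have := sq_le_one_of_norm (hu i)
          have := sq_le_one_of_norm (hu j)
          linarith)
      have hcard1 : (Finset.univ.filter (fun k => u1 k ≠ 0)).card ≤ n := by
        have hsubset : Finset.univ.filter (fun k => u1 k ≠ 0)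
            ⊆ (Finset.univ.filter (fun k => u k ≠ 0)).erase j := by
          intro k hk
          have hk' : u1 k ≠ 0 := (Finset.mem_filter.mp hk).2
          rw [Finset.mem_erase, Finset.mem_filter]
          refine ⟨?_, Finset.mem_univ _, ?_⟩
          · intro h
            rw [h] at hk'
            exact hk' hz1
          · by_cases hki : k = i
            · rw [hki]; exact hui
            · exact hnz1 k hki hk'
        have h1 := Finset.card_le_card hsubset
        rw [Finset.card_erase_of_mem (by simp [huj])] at h1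
        omega
      obtain ⟨u2, hu2, hz2, hsep2, hsub2⟩ := ih u1 hu1 ⟨j, hz1⟩ hcard1
      exact ⟨u2, hu2, hz2, hsep2, hsub2.trans hsub1⟩

theorem norm_pool5_le (u : Fin 5 → E4) (hu : ∀ i, ‖u i‖ ≤ 1) (hz : ∃ i, u i = 0) (hsep : Sep5 u)
    (s : Fin 5 → ℝ) (hs : ∀ i, IsSign (s i)) : ‖∑ i, s i • u i‖ ≤ Real.sqrt 10 := by
  obtain ⟨z, hz⟩ := hz
  obtain ⟨k1, k2, k3, k4, -, -, -, -, h21, h31, h32, h41, h42, h43, hsum⟩ := others5 z
  rw [hsum (fun i => s i • u i)]
  simp only [hz, smul_zero]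
  apply Real.le_sqrt_of_sq_le
  rw [norm_sq_expand4]
  simp only [norm_zero, inner_zero_left]
  have q1 : s k1 ^ 2 = 1 := by rw [sq]; exact (hs k1).sq
  have q2 : s k2 ^ 2 = 1 := by rw [sq]; exact (hs k2).sq
  have q3 : s k3 ^ 2 = 1 := by rw [sq]; exact (hs k3).sq
  have q4 : s k4 ^ 2 = 1 := by rw [sq]; exact (hs k4).sq
  have n1 := sq_le_one_of_norm (hu k1)
  have n2 := sq_le_one_of_norm (hu k2)
  have n3 := sq_le_one_of_norm (hu k3)
  have n4 := sq_le_one_of_norm (hu k4)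
  have p12 := ((hs k1).mul (hs k2)).mul_le_abs ⟪u k1, u k2⟫
  have p13 := ((hs k1).mul (hs k3)).mul_le_abs ⟪u k1, u k3⟫
  have p14 := ((hs k1).mul (hs k4)).mul_le_abs ⟪u k1, u k4⟫
  have p23 := ((hs k2).mul (hs k3)).mul_le_abs ⟪u k2, u k3⟫
  have p24 := ((hs k2).mul (hs k4)).mul_le_abs ⟪u k2, u k4⟫
  have p34 := ((hs k3).mul (hs k4)).mul_le_abs ⟪u k3, u k4⟫
  have r12 := hsep k1 k2 h21.symm
  have r13 := hsep k1 k3 h31.symm
  have r14 := hsep k1 k4 h41.symm
  have r23 := hsep k2 k3 h32.symm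
  have r24 := hsep k2 k4 h42.symm
  have r34 := hsep k3 k4 h43.symm
  rw [q1, q2, q3, q4]
  linarith

/-- the invariant of the merging strategy in dimension four -/
theorem four_invariant {N : ℕ} (v : Fin N → E4) (hv : ∀ i, ‖v i‖ ≤ 1) (k : ℕ) (hk : k ≤ N) :
    ∃ u : Fin 5 → E4, (∀ i, ‖u i‖ ≤ 1) ∧ (∃ i, u i = 0) ∧ Sep5 u ∧
      ∀ s : Fin 5 → ℝ, (∀ i, IsSign (s i)) → ∃ ε : Fin N → ℝ, (∀ i, ε i = 1 ∨ ε i = -1) ∧
        prefixSum v ε k = ∑ i, s i • u i ∧ ∀ j ≤ k, ‖prefixSum v ε j‖ ≤ Real.sqrt 10 := by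
  induction k with
  | zero =>
    refine ⟨fun _ => 0, by simp, ⟨0, rfl⟩, ?_, fun s _ => ⟨fun _ => 1, fun _ => Or.inl rfl, ?_, ?_⟩⟩
    · intro i j _
      simp
    · simp [prefixSum_zero]
    · intro j hj
      obtain rfl : j = 0 := by omega
      simp [prefixSum_zero]
  | succ k ih =>
    have hkN : k < N := hk
    obtain ⟨u, hu, ⟨z, hz⟩, -, hab⟩ := ih hkN.le
    set c := v ⟨k, hkN⟩ with hc
    have hu1 : ∀ i, ‖Function.update u z c i‖ ≤ 1 := by
      intro i
      by_cases h : i = z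
      · rw [h, Function.update_self]; exact hv _
      · rw [Function.update_of_ne h]; exact hu i
    have hins : ∀ s : Fin 5 → ℝ, ∑ i, s i • Function.update u z c i
        = ∑ i, s i • u i + s z • c := by
      intro s
      have e : ∀ i, s i • Function.update u z c i
          = s i • u i + (if i = z then s z • c else 0) := by
        intro i
        by_cases h : i = z
        · subst h
          simp [hz]
        · simp [h]
      simp only [e, Finset.sum_add_distrib, Finset.sum_ite_eq', Finset.mem_univ, if_true]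
    obtain ⟨u2, hu2, hz2, hsub2⟩ : ∃ u2 : Fin 5 → E4, (∀ i, ‖u2 i‖ ≤ 1) ∧ (∃ i, u2 i = 0) ∧
        Sub5 u2 (Function.update u z c) := by
      by_cases h0 : ∃ i, Function.update u z c i = 0
      · exact ⟨_, hu1, h0, Sub5.refl _⟩
      · push Not at h0
        obtain ⟨η, hη, ⟨j, l, hjl, hj, hl⟩, hw⟩ := merge4 _ hu1 h0
        obtain ⟨u2, h1, h2, -, h4⟩ := pool_merge5 _ η hη j l hjl hj hl hu1 hw
        exact ⟨u2, h1, ⟨l, h2⟩, h4⟩
    obtain ⟨u3, hu3, hz3, hsep3, hsub3⟩ := normalize5 5 u2 hu2 hz2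
      ((Finset.card_filter_le _ _).trans (by simp))
    refine ⟨u3, hu3, hz3, hsep3, fun s hs => ?_⟩
    obtain ⟨s1, hs1, e1⟩ := (hsub3.trans hsub2) s hs
    obtain ⟨ε, hε, hsum, hbd⟩ := hab s1 hs1
    have hlast : prefixSum v (Function.update ε ⟨k, hkN⟩ (s1 z)) (k + 1) = ∑ i, s i • u3 i := by
      rw [prefixSum_succ v _ k hkN, prefixSum_update v ε k hkN (s1 z) k le_rfl, hsum,
        Function.update_self, e1, hins]
    refine ⟨Function.update ε ⟨k, hkN⟩ (s1 z), ?_, hlast, ?_⟩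
    · intro i
      by_cases hi : i = ⟨k, hkN⟩
      · rw [hi, Function.update_self]; exact hs1 z
      · rw [Function.update_of_ne hi]; exact hε i
    · intro j hj
      rcases Nat.lt_or_ge j (k + 1) with hlt | hge
      · rw [prefixSum_update v ε k hkN (s1 z) j (by omega)]
        exact hbd j (by omega)
      · obtain rfl : j = k + 1 := by omega
        rw [hlast]
        exact norm_pool5_le u3 hu3 hz3 hsep3 s hs

/-- every finite sequence in the unit ball of `ℝ⁴` has signs with all initial sums of norm at most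
`√10` -/
theorem four_signs {N : ℕ} (v : Fin N → E4) (hv : ∀ i, ‖v i‖ ≤ 1) :
    ∃ ε : Fin N → ℝ, (∀ i, ε i = 1 ∨ ε i = -1) ∧
      ∀ k ≤ N, ‖prefixSum v ε k‖ ≤ Real.sqrt 10 := by
  obtain ⟨u, -, -, -, h⟩ := four_invariant v hv N le_rfl
  obtain ⟨ε, hε, -, hbd⟩ := h (fun _ => 1) (fun _ => Or.inl rfl)
  exact ⟨ε, hε, hbd⟩

theorem sigmaN_four_le (N : ℕ) : sigmaN 4 N ≤ ENNReal.ofReal (Real.sqrt 10) := by
  unfold sigmaN
  refine iSup₂_le (fun v hv => ?_)
  obtain ⟨ε, hε, hbd⟩ := four_signs v hv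
  refine iInf₂_le_of_le ε hε ?_
  exact iSup₂_le (fun k hk => ENNReal.ofReal_le_ofReal (hbd k hk))

theorem sigma_four_le : sigma 4 ≤ ENNReal.ofReal (Real.sqrt 10) := by
  unfold sigma
  exact iSup₂_le (fun N _ => sigmaN_four_le N)

end Vale.Agent.Lib.P262
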