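import Vale.Agent.Lib.P262.Forces

/-!
# P262: the planar gadget and the lifting lemma
-/

namespace Vale.Agent.Lib.P262

open scoped ENNReal RealInnerProductSpace

section general

variable {E : Type*} [NormedAddCommGroup E] [InnerProductSpace ℝ E]

/-- a unit vector with prescribed inner product with `x` -/
theorem exists_unit_inner (hperp : ∀ x : E, ∃ z : E, ‖z‖ = 1 ∧ ⟪x, z⟫ = 0) (x : E) (t : ℝ)
    (ht0 : 0 ≤ t) (ht : t ≤ ‖x‖) (hx : 0 < ‖x‖) : ∃ u : E, ‖u‖ = 1 ∧ ⟪x, u⟫ = t := by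
  obtain ⟨z, hz, hxz⟩ := hperp x
  have hx2 : 0 < ‖x‖ ^ 2 := by positivity
  have hle : t ^ 2 / ‖x‖ ^ 2 ≤ 1 := by
    rw [div_le_one hx2]
    exact pow_le_pow_left₀ ht0 ht 2
  refine ⟨(t / ‖x‖ ^ 2) • x + Real.sqrt (1 - t ^ 2 / ‖x‖ ^ 2) • z, ?_, ?_⟩
  · have h1 : ‖(t / ‖x‖ ^ 2) • x + Real.sqrt (1 - t ^ 2 / ‖x‖ ^ 2) • z‖ ^ 2 = 1 := by
      rw [norm_add_sq_real, norm_smul, norm_smul, inner_smul_left, inner_smul_right, hxz, hz,
        mul_pow, mul_pow, Real.norm_eq_abs, Real.norm_eq_abs, sq_abs, sq_abs,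
        Real.sq_sqrt (by linarith)]
      field_simp
      ring
    have h2 : ‖(t / ‖x‖ ^ 2) • x + Real.sqrt (1 - t ^ 2 / ‖x‖ ^ 2) • z‖ ^ 2 = 1 ^ 2 := by
      rw [h1]; norm_num
    exact (pow_left_inj₀ (norm_nonneg _) zero_le_one two_ne_zero).mp h2
  · rw [inner_add_right, inner_smul_right, inner_smul_right, hxz, real_inner_self_eq_norm_sq]
    field_simp
    ring

/-- the one-candidate gadget: from a point `x` with `‖x‖ ≥ 1/2`, `m+1` unit vectors force the squared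
norm `‖x‖² + 2 - 2^{-m}` -/
theorem gadget (hperp : ∀ x : E, ∃ z : E, ‖z‖ = 1 ∧ ⟪x, z⟫ = 0) (m : ℕ) :
    ∀ x : E, 1 / 2 ≤ ‖x‖ → ∃ l : List E, l.length = m + 1 ∧ (∀ u ∈ l, ‖u‖ = 1) ∧
      Forces l x (‖x‖ ^ 2 + (2 - (1 / 2) ^ m)) := by
  induction m with
  | zero =>
    intro x _
    obtain ⟨z, hz, hxz⟩ := hperp x
    refine ⟨[z], rfl, by simp [hz], Or.inr ⟨?_, ?_⟩⟩
    · show _ ≤ ‖x + z‖ ^ 2
      rw [norm_add_sq_real, hxz, hz]; norm_num
    · show _ ≤ ‖x - z‖ ^ 2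
      rw [norm_sub_sq_real, hxz, hz]; norm_num
  | succ m ih =>
    intro x hx
    set c : ℝ := 2 - (1 / 2) ^ m with hc
    have hpow0 : (0 : ℝ) < (1 / 2) ^ m := by positivity
    have hpow1 : ((1 : ℝ) / 2) ^ m ≤ 1 := pow_le_one₀ (by norm_num) (by norm_num)
    have hc1 : 1 ≤ c := by rw [hc]; linarith
    have hc2 : c < 2 := by rw [hc]; linarith
    obtain ⟨u, hu, hxu⟩ := exists_unit_inner hperp x (c / 4) (by linarith) (by linarith)
      (by linarith)
    have hsub : ‖x - u‖ ^ 2 = ‖x‖ ^ 2 + 1 - c / 2 := by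
      rw [norm_sub_sq_real, hxu, hu]; ring
    have hadd : ‖x + u‖ ^ 2 = ‖x‖ ^ 2 + 1 + c / 2 := by
      rw [norm_add_sq_real, hxu, hu]; ring
    have hx' : 1 / 2 ≤ ‖x - u‖ := by
      have h1 : (1 / 2 : ℝ) ^ 2 ≤ ‖x - u‖ ^ 2 := by
        rw [hsub]
        have : (1 / 2 : ℝ) ^ 2 ≤ ‖x‖ ^ 2 := pow_le_pow_left₀ (by norm_num) hx 2
        linarith
      exact (pow_le_pow_iff_left₀ (by norm_num) (norm_nonneg _) two_ne_zero).mp h1
    obtain ⟨l, hl, hl1, hf⟩ := ih (x - u) hx'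
    have hval : ‖x‖ ^ 2 + (2 - (1 / 2) ^ (m + 1)) = ‖x‖ ^ 2 + 1 + c / 2 := by
      rw [hc, pow_succ]; ring
    refine ⟨u :: l, by simp [hl], ?_, Or.inr ⟨?_, ?_⟩⟩
    · intro w hw
      rcases List.mem_cons.mp hw with rfl | hw
      · exact hu
      · exact hl1 w hw
    · exact Forces.of_le (by rw [hval, hadd])
    · rw [hval]
      have : ‖x - u‖ ^ 2 + (2 - (1 / 2) ^ m) = ‖x‖ ^ 2 + 1 + c / 2 := by
        rw [hsub, hc]; ring
      rwa [this] at hf

end general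

/-- in the plane every vector has a unit normal -/
theorem plane_perp (x : EuclideanSpace ℝ (Fin 2)) :
    ∃ z : EuclideanSpace ℝ (Fin 2), ‖z‖ = 1 ∧ ⟪x, z⟫ = 0 := by
  by_cases hx : x = 0
  · refine ⟨EuclideanSpace.single 0 1, by simp, by simp [hx]⟩
  · have hn : 0 < ‖x‖ := norm_pos_iff.mpr hx
    refine ⟨(‖x‖⁻¹) • !₂[-(x 1), x 0], ?_, ?_⟩
    · rw [norm_smul, norm_inv, norm_norm]
      have : ‖(!₂[-(x 1), x 0] : EuclideanSpace ℝ (Fin 2))‖ = ‖x‖ := by
        rw [EuclideanSpace.norm_eq, EuclideanSpace.norm_eq]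
        congr 1
        simp [Fin.sum_univ_two]
        ring
      rw [this]
      field_simp
    · rw [inner_smul_right]
      have : ⟪x, (!₂[-(x 1), x 0] : EuclideanSpace ℝ (Fin 2))⟫ = 0 := by
        simp [PiLp.inner_apply, Fin.sum_univ_two]
        ring
      rw [this, mul_zero]

/-- the planar sequences: `N ≥ 2` unit vectors of the plane forcing `3 - 2^{-(N-2)}` -/
theorem attain_plane (m : ℕ) : Attain 2 (m + 2) (3 - (1 / 2) ^ m) := by
  have he : ‖(EuclideanSpace.single 0 1 : EuclideanSpace ℝ (Fin 2))‖ = 1 := by simp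
  obtain ⟨l, hl, hl1, hf⟩ := gadget plane_perp m (EuclideanSpace.single 0 1 : EuclideanSpace ℝ (Fin 2))
    (by rw [he]; norm_num)
  rw [he] at hf
  have hf' : Forces l (EuclideanSpace.single 0 1 : EuclideanSpace ℝ (Fin 2)) (3 - (1 / 2) ^ m) := by
    have : (1 : ℝ) ^ 2 + (2 - (1 / 2) ^ m) = 3 - (1 / 2) ^ m := by ring
    rwa [this] at hf
  refine ⟨EuclideanSpace.single 0 1 :: l, by simp [hl], ?_, Or.inr ⟨?_, ?_⟩⟩
  · intro w hw
    rcases List.mem_cons.mp hw with rfl | hw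
    · exact he.le
    · exact (hl1 w hw).le
  · rwa [zero_add]
  · rw [zero_sub]; exact hf'.neg

/-- the isometric embedding of `ℝ^d` into `ℝ^{d+1}` as the hyperplane `x_0 = 0` -/
noncomputable def lift (d : ℕ) : EuclideanSpace ℝ (Fin d) →ₗᵢ[ℝ] EuclideanSpace ℝ (Fin (d + 1)) where
  toFun x := WithLp.toLp 2 (Fin.cons 0 (fun i => x i) : Fin (d + 1) → ℝ)
  map_add' := by
    intro x y; ext i
    refine Fin.cases ?_ (fun j => ?_) i <;> simp
  map_smul' := by
    intro c x; ext i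
    refine Fin.cases ?_ (fun j => ?_) i <;> simp
  norm_map' := by
    intro x
    simp [EuclideanSpace.norm_eq, Fin.sum_univ_succ]

theorem Attain.lift {d N : ℕ} {a : ℝ} (h : Attain d N a) : Attain (d + 1) (N + 1) (a + 1) := by
  obtain ⟨l, hl, hl1, hf⟩ := h
  set e : EuclideanSpace ℝ (Fin (d + 1)) := EuclideanSpace.single 0 1 with he
  have hen : ‖e‖ = 1 := by simp [he]
  have horth : ∀ x : EuclideanSpace ℝ (Fin d), ⟪e, Vale.Agent.Lib.P262.lift d x⟫ = 0 := by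
    intro x
    simp [he, Vale.Agent.Lib.P262.lift, EuclideanSpace.inner_single_left]
  have hf1 : Forces (l.map (Vale.Agent.Lib.P262.lift d)) (0 + e) (a + 1) := by
    have h1 := (hf.map (Vale.Agent.Lib.P262.lift d)).add_orth (y := e) (horth 0) (by
      intro u hu
      obtain ⟨w, _, rfl⟩ := List.mem_map.mp hu
      exact horth w)
    rw [map_zero, hen] at h1
    simpa using h1
  refine ⟨e :: l.map (Vale.Agent.Lib.P262.lift d), by simp [hl], ?_, Or.inr ⟨hf1, ?_⟩⟩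
  · intro w hw
    rcases List.mem_cons.mp hw with rfl | hw
    · exact hen.le
    · obtain ⟨w', hw', rfl⟩ := List.mem_map.mp hw
      rw [LinearIsometry.norm_map]
      exact hl1 w' hw'
  · have := hf1.neg
    rwa [zero_add, ← zero_sub] at this

theorem Attain.lift_iter {d N : ℕ} {a : ℝ} (h : Attain d N a) (j : ℕ) :
    Attain (d + j) (N + j) (a + j) := by
  induction j with
  | zero => simpa using h
  | succ j ih =>
    have := ih.lift
    rw [add_assoc, add_assoc, add_assoc] at this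
    push_cast
    exact this

end Vale.Agent.Lib.P262
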