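import Vale.Agent.Lib.P262.Gadget

/-!
# P262: the plane, `σ(2) ≤ √3`

Merging strategy.  At every time the vectors seen so far are split into at most two groups with
fixed relative signs inside each group; the group sums `a`, `b` have norm at most `1` and satisfy
`2 |⟪a, b⟫| ≤ 1`, so all four sums `± a ± b` have norm at most `√3`.  When a new vector `c` arrives,
two of the three vectors `a`, `b`, `c` have a signed sum of norm at most `1` (the Gram determinant of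
three vectors of the plane vanishes), and two vectors with `2 |⟪a, b⟫| > 1` are merged as well.
-/

namespace Vale.Agent.Lib.P262

open scoped ENNReal RealInnerProductSpace

abbrev E2 := EuclideanSpace ℝ (Fin 2)

/-- the Gram determinant of three vectors of the plane vanishes -/
theorem gram_plane (a b c : E2) :
    ⟪a, a⟫ * ⟪b, b⟫ * ⟪c, c⟫ + 2 * ⟪a, b⟫ * ⟪a, c⟫ * ⟪b, c⟫ - ⟪a, a⟫ * ⟪b, c⟫ ^ 2
      - ⟪b, b⟫ * ⟪a, c⟫ ^ 2 - ⟪c, c⟫ * ⟪a, b⟫ ^ 2 = 0 := by
  simp only [PiLp.inner_apply, Fin.sum_univ_two, RCLike.inner_apply, conj_trivial]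
  ring

/-- real-number core of the merging lemma -/
theorem merge_core (A B C x y z : ℝ) (hA : A ≤ 1) (hB : B ≤ 1) (hC : C ≤ 1)
    (hdet : A * B * C + 2 * x * y * z - A * z ^ 2 - B * y ^ 2 - C * x ^ 2 = 0) :
    A + B - 2 * |x| ≤ 1 ∨ A + C - 2 * |y| ≤ 1 ∨ B + C - 2 * |z| ≤ 1 := by
  by_contra hcon
  push Not at hcon
  obtain ⟨h1, h2, h3⟩ := hcon
  have hx0 := abs_nonneg x
  have hy0 := abs_nonneg y
  have hz0 := abs_nonneg z
  have hxA : 2 * |x| < A := by linarith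
  have hxB : 2 * |x| < B := by linarith
  have hyA : 2 * |y| < A := by linarith
  have hyC : 2 * |y| < C := by linarith
  have hzB : 2 * |z| < B := by linarith
  have hzC : 2 * |z| < C := by linarith
  have hApos : 0 < A := by linarith
  have hBpos : 0 < B := by linarith
  have hCpos : 0 < C := by linarith
  -- squares
  have hx2 : 4 * x ^ 2 < A * B := by
    have : (2 * |x|) * (2 * |x|) < A * B := mul_lt_mul'' hxA hxB (by positivity) (by positivity)
    have h4 : (2 * |x|) * (2 * |x|) = 4 * x ^ 2 := by rw [← sq_abs x]; ring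
    linarith
  have hy2 : 4 * y ^ 2 < A * C := by
    have : (2 * |y|) * (2 * |y|) < A * C := mul_lt_mul'' hyA hyC (by positivity) (by positivity)
    have h4 : (2 * |y|) * (2 * |y|) = 4 * y ^ 2 := by rw [← sq_abs y]; ring
    linarith
  have hz2 : 4 * z ^ 2 < B * C := by
    have : (2 * |z|) * (2 * |z|) < B * C := mul_lt_mul'' hzB hzC (by positivity) (by positivity)
    have h4 : (2 * |z|) * (2 * |z|) = 4 * z ^ 2 := by rw [← sq_abs z]; ring
    linarith
  -- the triple product: 8 |x||y||z| < A B C, using 2|x| < A, 2|y| < C, 2|z| < B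
  have hxyz : (2 * |x|) * (2 * |y|) * (2 * |z|) < A * C * B := by
    have h12 : (2 * |x|) * (2 * |y|) < A * C := mul_lt_mul'' hxA hyC (by positivity) (by positivity)
    exact mul_lt_mul'' h12 hzB (by positivity) (by positivity)
  have habs : -(|x| * |y| * |z|) ≤ x * y * z := by
    have : |x * y * z| = |x| * |y| * |z| := by rw [abs_mul, abs_mul]
    have h5 := neg_abs_le (x * y * z)
    linarith
  have e1 : A * z ^ 2 * 4 < A * (B * C) := by nlinarith
  have e2 : B * y ^ 2 * 4 < B * (A * C) := by nlinarith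
  have e3 : C * x ^ 2 * 4 < C * (A * B) := by nlinarith
  nlinarith

/-- a sign -/
def IsSign (s : ℝ) : Prop := s = 1 ∨ s = -1

theorem IsSign.mul {s t : ℝ} (hs : IsSign s) (ht : IsSign t) : IsSign (s * t) := by
  rcases hs with rfl | rfl <;> rcases ht with rfl | rfl <;> simp [IsSign]

theorem IsSign.sq {s : ℝ} (hs : IsSign s) : s * s = 1 := by
  rcases hs with rfl | rfl <;> norm_num

theorem IsSign.abs {s : ℝ} (hs : IsSign s) : |s| = 1 := by
  rcases hs with rfl | rfl <;> simp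

section general

variable {E : Type*} [NormedAddCommGroup E] [InnerProductSpace ℝ E]

theorem norm_add_smul_sq (u w : E) {τ : ℝ} (hτ : IsSign τ) :
    ‖u + τ • w‖ ^ 2 = ‖u‖ ^ 2 + ‖w‖ ^ 2 + 2 * τ * ⟪u, w⟫ := by
  rw [norm_add_sq_real, inner_smul_right, norm_smul, Real.norm_eq_abs, hτ.abs]
  ring

theorem exists_sign_merge (u w : E) :
    ∃ τ : ℝ, IsSign τ ∧ ‖u + τ • w‖ ^ 2 = ‖u‖ ^ 2 + ‖w‖ ^ 2 - 2 * |⟪u, w⟫| := by
  rcases le_total 0 ⟪u, w⟫ with h | h
  · refine ⟨-1, Or.inr rfl, ?_⟩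
    rw [norm_add_smul_sq u w (Or.inr rfl), abs_of_nonneg h]
    ring
  · refine ⟨1, Or.inl rfl, ?_⟩
    rw [norm_add_smul_sq u w (Or.inl rfl), abs_of_nonpos h]
    ring

omit [InnerProductSpace ℝ E] in
theorem norm_le_one_of_sq {x : E} (h : ‖x‖ ^ 2 ≤ 1) : ‖x‖ ≤ 1 :=
  (sq_le_one_iff₀ (norm_nonneg x)).mp h

omit [InnerProductSpace ℝ E] in
theorem sq_le_one_of_norm {x : E} (h : ‖x‖ ≤ 1) : ‖x‖ ^ 2 ≤ 1 :=
  (sq_le_one_iff₀ (norm_nonneg x)).mpr h

/-- two vectors of the unit ball are either nearly orthogonal or can be merged -/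
theorem normalize (a b : E) (ha : ‖a‖ ≤ 1) (hb : ‖b‖ ≤ 1) :
    ∃ a' b' : E, ‖a'‖ ≤ 1 ∧ ‖b'‖ ≤ 1 ∧ 2 * |⟪a', b'⟫| ≤ 1 ∧
      ∀ s t : ℝ, IsSign s → IsSign t → ∃ s' t' : ℝ, IsSign s' ∧ IsSign t' ∧
        s • a' + t • b' = s' • a + t' • b := by
  by_cases h : 2 * |⟪a, b⟫| ≤ 1
  · exact ⟨a, b, ha, hb, h, fun s t hs ht => ⟨s, t, hs, ht, rfl⟩⟩
  · push Not at h
    obtain ⟨τ, hτ, hn⟩ := exists_sign_merge a b
    refine ⟨a + τ • b, 0, ?_, by simp, by simp, fun s t hs _ => ⟨s, s * τ, hs, hs.mul hτ, ?_⟩⟩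
    · apply norm_le_one_of_sq
      have := sq_le_one_of_norm ha
      have := sq_le_one_of_norm hb
      linarith
    · rw [smul_zero, add_zero, smul_add, smul_smul]

theorem norm_pool_le (a b : E) (ha : ‖a‖ ≤ 1) (hb : ‖b‖ ≤ 1) (hab : 2 * |⟪a, b⟫| ≤ 1)
    {s t : ℝ} (hs : IsSign s) (ht : IsSign t) : ‖s • a + t • b‖ ≤ Real.sqrt 3 := by
  apply Real.le_sqrt_of_sq_le
  have h1 : ‖s • a + t • b‖ ^ 2 = ‖a‖ ^ 2 + ‖b‖ ^ 2 + 2 * (s * t) * ⟪a, b⟫ := by
    rw [norm_add_sq_real, inner_smul_left, inner_smul_right, norm_smul, norm_smul,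
      Real.norm_eq_abs, Real.norm_eq_abs, hs.abs, ht.abs]
    simp only [conj_trivial]
    ring
  rw [h1]
  have h2 := sq_le_one_of_norm ha
  have h3 := sq_le_one_of_norm hb
  have h4 : (s * t) * ⟪a, b⟫ ≤ |⟪a, b⟫| := by
    rcases hs.mul ht with h | h <;> rw [h]
    · simpa using le_abs_self _
    · simpa using neg_le_abs _
  linarith

end general

/-- one step of the merging strategy in the plane -/
theorem step_plane (a b c : E2) (ha : ‖a‖ ≤ 1) (hb : ‖b‖ ≤ 1) (hc : ‖c‖ ≤ 1) :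
    ∃ a' b' : E2, ‖a'‖ ≤ 1 ∧ ‖b'‖ ≤ 1 ∧
      ∀ s t : ℝ, IsSign s → IsSign t → ∃ s' t' σ : ℝ, IsSign s' ∧ IsSign t' ∧ IsSign σ ∧
        s • a' + t • b' = s' • a + t' • b + σ • c := by
  have hA := sq_le_one_of_norm ha
  have hB := sq_le_one_of_norm hb
  have hC := sq_le_one_of_norm hc
  have hdet := gram_plane a b c
  simp only [real_inner_self_eq_norm_sq] at hdet
  rcases merge_core _ _ _ _ _ _ hA hB hC hdet with h | h | h
  · obtain ⟨τ, hτ, hn⟩ := exists_sign_merge a b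
    refine ⟨a + τ • b, c, norm_le_one_of_sq (by linarith), hc, fun s t hs ht =>
      ⟨s, s * τ, t, hs, hs.mul hτ, ht, ?_⟩⟩
    rw [smul_add, smul_smul]
  · obtain ⟨τ, hτ, hn⟩ := exists_sign_merge a c
    refine ⟨a + τ • c, b, norm_le_one_of_sq (by linarith), hb, fun s t hs ht =>
      ⟨s, t, s * τ, hs, ht, hs.mul hτ, ?_⟩⟩
    rw [smul_add, smul_smul]
    abel
  · obtain ⟨τ, hτ, hn⟩ := exists_sign_merge b c
    refine ⟨a, b + τ • c, ha, norm_le_one_of_sq (by linarith), fun s t hs ht =>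
      ⟨s, t, t * τ, hs, ht, ht.mul hτ, ?_⟩⟩
    rw [smul_add, smul_smul]
    abel

/-! ### initial sums -/

section prefixes

variable {d N : ℕ}

theorem prefixSum_zero (v : Fin N → EuclideanSpace ℝ (Fin d)) (ε : Fin N → ℝ) :
    prefixSum v ε 0 = 0 := by
  simp [prefixSum]

theorem prefixSum_succ (v : Fin N → EuclideanSpace ℝ (Fin d)) (ε : Fin N → ℝ) (k : ℕ)
    (hk : k < N) : prefixSum v ε (k + 1) = prefixSum v ε k + ε ⟨k, hk⟩ • v ⟨k, hk⟩ := by
  unfold prefixSum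
  have h : Finset.univ.filter (fun i : Fin N => i.val < k + 1)
      = insert (⟨k, hk⟩ : Fin N) (Finset.univ.filter (fun i : Fin N => i.val < k)) := by
    ext i
    simp only [Finset.mem_filter, Finset.mem_univ, true_and, Finset.mem_insert, Fin.ext_iff]
    omega
  rw [h, Finset.sum_insert (by simp), add_comm]

theorem prefixSum_update (v : Fin N → EuclideanSpace ℝ (Fin d)) (ε : Fin N → ℝ) (k : ℕ)
    (hk : k < N) (σ : ℝ) (j : ℕ) (hj : j ≤ k) :
    prefixSum v (Function.update ε ⟨k, hk⟩ σ) j = prefixSum v ε j := by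
  unfold prefixSum
  refine Finset.sum_congr rfl (fun i hi => ?_)
  have hi' : i.val < j := (Finset.mem_filter.mp hi).2
  have hne : i ≠ ⟨k, hk⟩ := by
    intro h
    rw [h] at hi'
    simp only at hi'
    omega
  rw [Function.update_of_ne hne]

end prefixes

/-- the invariant of the merging strategy -/
theorem plane_invariant {N : ℕ} (v : Fin N → E2) (hv : ∀ i, ‖v i‖ ≤ 1) (k : ℕ) (hk : k ≤ N) :
    ∃ a b : E2, ‖a‖ ≤ 1 ∧ ‖b‖ ≤ 1 ∧ 2 * |⟪a, b⟫| ≤ 1 ∧
      ∀ s t : ℝ, IsSign s → IsSign t → ∃ ε : Fin N → ℝ, (∀ i, ε i = 1 ∨ ε i = -1) ∧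
        prefixSum v ε k = s • a + t • b ∧ ∀ j ≤ k, ‖prefixSum v ε j‖ ≤ Real.sqrt 3 := by
  induction k with
  | zero =>
    refine ⟨0, 0, by simp, by simp, by simp, fun s t _ _ => ⟨fun _ => 1, fun _ => Or.inl rfl, ?_, ?_⟩⟩
    · simp [prefixSum_zero]
    · intro j hj
      obtain rfl : j = 0 := by omega
      simp [prefixSum_zero]
  | succ k ih =>
    have hkN : k < N := hk
    obtain ⟨a, b, ha, hb, -, hab⟩ := ih hkN.le
    obtain ⟨a1, b1, ha1, hb1, h1⟩ := step_plane a b (v ⟨k, hkN⟩) ha hb (hv _)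
    obtain ⟨a2, b2, ha2, hb2, hab2, h2⟩ := normalize a1 b1 ha1 hb1
    refine ⟨a2, b2, ha2, hb2, hab2, fun s t hs ht => ?_⟩
    obtain ⟨s1, t1, hs1, ht1, e1⟩ := h2 s t hs ht
    obtain ⟨s0, t0, σ, hs0, ht0, hσ, e0⟩ := h1 s1 t1 hs1 ht1
    obtain ⟨ε, hε, hsum, hbd⟩ := hab s0 t0 hs0 ht0
    have hlast : prefixSum v (Function.update ε ⟨k, hkN⟩ σ) (k + 1) = s • a2 + t • b2 := by
      rw [prefixSum_succ v _ k hkN, prefixSum_update v ε k hkN σ k le_rfl, hsum,
        Function.update_self, e1, e0]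
    refine ⟨Function.update ε ⟨k, hkN⟩ σ, ?_, hlast, ?_⟩
    · intro i
      by_cases hi : i = ⟨k, hkN⟩
      · rw [hi, Function.update_self]; exact hσ
      · rw [Function.update_of_ne hi]; exact hε i
    · intro j hj
      rcases Nat.lt_or_ge j (k + 1) with hlt | hge
      · rw [prefixSum_update v ε k hkN σ j (by omega)]
        exact hbd j (by omega)
      · obtain rfl : j = k + 1 := by omega
        rw [hlast]
        exact norm_pool_le a2 b2 ha2 hb2 hab2 hs ht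

/-- every finite sequence in the unit disc has signs with all initial sums of norm at most `√3` -/
theorem plane_signs {N : ℕ} (v : Fin N → E2) (hv : ∀ i, ‖v i‖ ≤ 1) :
    ∃ ε : Fin N → ℝ, (∀ i, ε i = 1 ∨ ε i = -1) ∧
      ∀ k ≤ N, ‖prefixSum v ε k‖ ≤ Real.sqrt 3 := by
  obtain ⟨a, b, -, -, -, h⟩ := plane_invariant v hv N le_rfl
  obtain ⟨ε, hε, -, hbd⟩ := h 1 1 (Or.inl rfl) (Or.inl rfl)
  exact ⟨ε, hε, hbd⟩

theorem sigmaN_two_le (N : ℕ) : sigmaN 2 N ≤ ENNReal.ofReal (Real.sqrt 3) := by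
  unfold sigmaN
  refine iSup₂_le (fun v hv => ?_)
  obtain ⟨ε, hε, hbd⟩ := plane_signs v hv
  refine iInf₂_le_of_le ε hε ?_
  exact iSup₂_le (fun k hk => ENNReal.ofReal_le_ofReal (hbd k hk))

theorem sigma_two_le : sigma 2 ≤ ENNReal.ofReal (Real.sqrt 3) := by
  unfold sigma
  exact iSup₂_le (fun N _ => sigmaN_two_le N)

/-- the lower bound, from the planar gadget -/
theorem le_sigma_two : ENNReal.ofReal (Real.sqrt 3) ≤ sigma 2 := by
  have hlim : Filter.Tendsto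
      (fun m : ℕ => ENNReal.ofReal (Real.sqrt ((3 : ℝ) - (1 / 2) ^ m))) Filter.atTop
      (nhds (ENNReal.ofReal (Real.sqrt ((3 : ℝ) - 0)))) := by
    refine (ENNReal.continuous_ofReal.tendsto _).comp ((Real.continuous_sqrt.tendsto _).comp ?_)
    exact tendsto_const_nhds.sub
      (tendsto_pow_atTop_nhds_zero_of_lt_one (by norm_num) (by norm_num))
  rw [sub_zero] at hlim
  refine le_of_tendsto' hlim fun m => ?_
  refine (attain_plane m).le_sigmaN.trans ?_
  unfold sigma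
  exact le_iSup₂_of_le (m + 2) (by omega) le_rfl

theorem sigma_two_eq : sigma 2 = ENNReal.ofReal (Real.sqrt 3) :=
  le_antisymm sigma_two_le le_sigma_two

end Vale.Agent.Lib.P262
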