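import Vale.Agent.Lib.P262.Four

/-!
# P262: from signs to rearrangements (Chobanyan's transference), and `S₂(4) ≤ √10`
-/

namespace Vale.Agent.Lib.P262

section chob

variable {E : Type*} [NormedAddCommGroup E] [NormedSpace ℝ E]

/-- sum of the vectors marked `true` -/
def plusSum (L : List (Bool × E)) : E := ((L.filter (fun x => x.1)).map Prod.snd).sum

/-- sum of the vectors marked `false` -/
def minusSum (L : List (Bool × E)) : E := ((L.filter (fun x => !x.1)).map Prod.snd).sum

/-- the signed sum: `true` is `+`, `false` is `-` -/
def signedSum (L : List (Bool × E)) : E := (L.map (fun x => if x.1 then x.2 else -x.2)).sum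

omit [NormedSpace ℝ E] in
theorem sum_eq_plus_add_minus (L : List (Bool × E)) :
    (L.map Prod.snd).sum = plusSum L + minusSum L := by
  induction L with
  | nil => simp [plusSum, minusSum]
  | cons a L ih =>
    rcases a with ⟨b, x⟩
    cases b
    · simp only [plusSum, minusSum, List.map_cons, List.sum_cons] at ih ⊢
      simp only [List.filter_cons]
      simp only [Bool.false_eq_true, if_false, Bool.not_false, if_true, List.map_cons,
        List.sum_cons]
      rw [ih]; abel
    · simp only [plusSum, minusSum, List.map_cons, List.sum_cons] at ih ⊢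
      simp only [List.filter_cons]
      simp only [Bool.false_eq_true, if_false, Bool.not_true, if_true, List.map_cons,
        List.sum_cons]
      rw [ih]; abel

omit [NormedSpace ℝ E] in
theorem signed_eq_plus_sub_minus (L : List (Bool × E)) :
    signedSum L = plusSum L - minusSum L := by
  induction L with
  | nil => simp [plusSum, minusSum, signedSum]
  | cons a L ih =>
    rcases a with ⟨b, x⟩
    cases b
    · simp only [plusSum, minusSum, signedSum, List.map_cons, List.sum_cons] at ih ⊢
      simp only [List.filter_cons]
      simp only [Bool.false_eq_true, if_false, Bool.not_false, if_true, List.map_cons,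
        List.sum_cons]
      rw [ih]; abel
    · simp only [plusSum, minusSum, signedSum, List.map_cons, List.sum_cons] at ih ⊢
      simp only [List.filter_cons]
      simp only [Bool.false_eq_true, if_false, Bool.not_true, if_true, List.map_cons,
        List.sum_cons]
      rw [ih]; abel

theorem take_filter {α : Type*} (p : α → Bool) (L : List α) (k : ℕ) :
    ∃ k', (L.filter p).take k = (L.take k').filter p := by
  induction L generalizing k with
  | nil => exact ⟨0, by simp⟩
  | cons a L ih =>
    cases k with
    | zero => exact ⟨0, by simp⟩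
    | succ k =>
      by_cases h : p a
      · obtain ⟨k', hk'⟩ := ih k
        exact ⟨k' + 1, by simp [List.filter_cons, h, hk']⟩
      · obtain ⟨k', hk'⟩ := ih (k + 1)
        exact ⟨k' + 1, by simp [List.filter_cons, h, hk']⟩

/-- the rearrangement: first the `+` vectors in order, then the `-` vectors in reverse order -/
def rearr (L : List (Bool × E)) : List E :=
  (L.filter (fun x => x.1)).map Prod.snd ++ ((L.filter (fun x => !x.1)).map Prod.snd).reverse

omit [NormedSpace ℝ E] in
theorem rearr_perm (L : List (Bool × E)) : (rearr L).Perm (L.map Prod.snd) := by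
  unfold rearr
  refine (List.Perm.append_left _ (List.reverse_perm _)).trans ?_
  rw [← List.map_append]
  exact (List.filter_append_perm _ L).map _

theorem rearr_bound (L : List (Bool × E)) (h0 : (L.map Prod.snd).sum = 0) (m R : ℝ)
    (hm : ∀ k, ‖((L.take k).map Prod.snd).sum‖ ≤ m) (hR : ∀ k, ‖signedSum (L.take k)‖ ≤ R)
    (k : ℕ) : ‖((rearr L).take k).sum‖ ≤ (m + R) / 2 := by
  have hP : ∀ k', ‖plusSum (L.take k')‖ ≤ (m + R) / 2 := by
    intro k'
    have e : (2 : ℝ) • plusSum (L.take k')
        = ((L.take k').map Prod.snd).sum + signedSum (L.take k') := by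
      rw [sum_eq_plus_add_minus, signed_eq_plus_sub_minus, two_smul]; abel
    have h1 : ‖(2 : ℝ) • plusSum (L.take k')‖ ≤ m + R := by
      rw [e]; exact (norm_add_le _ _).trans (add_le_add (hm k') (hR k'))
    rw [norm_smul] at h1
    norm_num at h1
    linarith
  have hM : ∀ k', ‖minusSum (L.take k')‖ ≤ (m + R) / 2 := by
    intro k'
    have e : (2 : ℝ) • minusSum (L.take k')
        = ((L.take k').map Prod.snd).sum - signedSum (L.take k') := by
      rw [sum_eq_plus_add_minus, signed_eq_plus_sub_minus, two_smul]; abel
    have h1 : ‖(2 : ℝ) • minusSum (L.take k')‖ ≤ m + R := by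
      rw [e]; exact (norm_sub_le _ _).trans (add_le_add (hm k') (hR k'))
    rw [norm_smul] at h1
    norm_num at h1
    linarith
  unfold rearr
  set A := (L.filter (fun x => x.1)).map Prod.snd with hA
  set B := (L.filter (fun x => !x.1)).map Prod.snd with hB
  have hAB : A.sum + B.sum = 0 := by
    have := sum_eq_plus_add_minus L
    rw [h0] at this
    exact this.symm
  rw [List.take_append, List.sum_append]
  rcases le_total k A.length with hk | hk
  · rw [Nat.sub_eq_zero_of_le hk, List.take_zero, List.sum_nil, add_zero, hA, ← List.map_take]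
    obtain ⟨k', hk'⟩ := take_filter (fun x : Bool × E => x.1) L k
    rw [hk']
    exact hP k'
  · rw [List.take_of_length_le hk, List.take_reverse, List.sum_reverse]
    have h2 := List.sum_take_add_sum_drop B (B.length - (k - A.length))
    have e : A.sum + (B.drop (B.length - (k - A.length))).sum
        = -(B.take (B.length - (k - A.length))).sum := by
      rw [eq_neg_iff_add_eq_zero, ← hAB, ← h2]; abel
    rw [e, norm_neg, hB, ← List.map_take]
    obtain ⟨k', hk'⟩ := take_filter (fun x : Bool × E => !x.1) L (B.length - (k - A.length))
    rw [hB] at hk'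
    rw [hk']
    exact hM k'

/-- the largest norm of an initial sum -/
noncomputable def maxInit (n : ℕ) (l : List E) : ℝ := ⨆ k : Fin (n + 1), ‖(l.take k).sum‖

omit [NormedSpace ℝ E] in
theorem le_maxInit (l : List E) (k : ℕ) : ‖(l.take k).sum‖ ≤ maxInit l.length l := by
  unfold maxInit
  rcases Nat.lt_or_ge k (l.length + 1) with h | h
  · exact le_ciSup (f := fun k : Fin (l.length + 1) => ‖(l.take k).sum‖)
      (Set.finite_range _).bddAbove ⟨k, h⟩
  · have e : l.take k = l.take l.length := by
      rw [List.take_of_length_le (by omega), List.take_length]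
    rw [e]
    exact le_ciSup (f := fun k : Fin (l.length + 1) => ‖(l.take k).sum‖)
      (Set.finite_range _).bddAbove ⟨l.length, by omega⟩

/-- Chobanyan's transference: if every ordering of a zero-sum family has signs with all signed
initial sums of norm at most `R`, then some ordering has all initial sums of norm at most `R` -/
theorem chobanyan (l : List E) (h0 : l.sum = 0) (R : ℝ)
    (hR : ∀ l' : List E, l'.Perm l → ∃ L : List (Bool × E), L.map Prod.snd = l' ∧
      ∀ k, ‖signedSum (L.take k)‖ ≤ R) :
    ∃ l' : List E, l'.Perm l ∧ ∀ k, ‖(l'.take k).sum‖ ≤ R := by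
  classical
  obtain ⟨l', hl', hmin⟩ := Finset.exists_min_image l.permutations.toFinset (maxInit l.length)
    ⟨l, by simp⟩
  have hl'p : l'.Perm l := by simpa using hl'
  obtain ⟨L, hL, hLR⟩ := hR l' hl'p
  have hlen : l'.length = l.length := hl'p.length_eq
  have hperm2 : (rearr L).Perm l := by
    have := rearr_perm L
    rw [hL] at this
    exact this.trans hl'p
  have h1 := hmin (rearr L) (by simpa using hperm2)
  have hsum0 : (L.map Prod.snd).sum = 0 := by
    rw [hL, hl'p.sum_eq, h0]
  have h2 : maxInit l.length (rearr L) ≤ (maxInit l.length l' + R) / 2 := by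
    unfold maxInit
    apply ciSup_le
    intro k
    refine rearr_bound L hsum0 _ R ?_ hLR k
    intro k'
    rw [List.map_take, hL]
    have := le_maxInit l' k'
    rw [hlen] at this
    exact this
  refine ⟨l', hl'p, fun k => ?_⟩
  have h3 := le_maxInit l' k
  rw [hlen] at h3
  linarith

end chob

theorem signedSum_append_singleton {E : Type*} [AddCommGroup E] (L : List (Bool × E))
    (a : Bool × E) : (((L ++ [a]).map (fun x => if x.1 then x.2 else -x.2)).sum : E)
      = (L.map (fun x => if x.1 then x.2 else -x.2)).sum + (if a.1 then a.2 else -a.2) := by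
  simp

/-- the signs of dimension four, for lists -/
theorem four_list_signs (l : List E4) (hl : ∀ x ∈ l, ‖x‖ ≤ 1) :
    ∃ L : List (Bool × E4), L.map Prod.snd = l ∧
      ∀ k, ‖signedSum (L.take k)‖ ≤ Real.sqrt 10 := by
  classical
  obtain ⟨ε, hε, hbd⟩ := four_signs (N := l.length) (fun i => l.get i)
    (fun i => hl _ (List.get_mem l i))
  set L : List (Bool × E4) := List.ofFn (fun i : Fin l.length => (decide (ε i = 1), l.get i))
    with hLdef
  have hLlen : L.length = l.length := by simp [hLdef]
  have key : ∀ k ≤ l.length, signedSum (L.take k) = prefixSum (fun i => l.get i) ε k := by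
    intro k
    induction k with
    | zero => intro _; simp [signedSum, prefixSum_zero]
    | succ k ih =>
      intro hk
      have hk' : k < l.length := hk
      have hkL : k < L.length := by omega
      rw [prefixSum_succ _ _ k hk', ← ih hk'.le]
      have e : L.take (k + 1) = L.take k ++ [L[k]] := by
        simp
      rw [e]
      unfold signedSum
      rw [signedSum_append_singleton]
      congr 1
      have e2 : L[k] = (decide (ε ⟨k, hk'⟩ = 1), l.get ⟨k, hk'⟩) := by
        simp [hLdef]
      rw [e2]
      rcases hε ⟨k, hk'⟩ with h | h
      · simp [h]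
      · rw [h]; norm_num
  refine ⟨L, ?_, fun k => ?_⟩
  · rw [hLdef, List.map_ofFn]
    exact List.ofFn_get l
  · rcases le_total k l.length with h | h
    · rw [key k h]; exact hbd k h
    · have e : L.take k = L.take l.length := by
        rw [List.take_of_length_le (by omega), List.take_of_length_le (by omega)]
      rw [e, key _ le_rfl]
      exact hbd _ le_rfl

/-- `S₂(4) ≤ √10`: every zero-sum family in the unit ball of `ℝ⁴` can be ordered with all initial
sums of norm at most `√10` -/
theorem steinitz_four (l : List E4) (hl : ∀ x ∈ l, ‖x‖ ≤ 1) (h0 : l.sum = 0) :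
    ∃ l' : List E4, l'.Perm l ∧ ∀ k, ‖(l'.take k).sum‖ ≤ Real.sqrt 10 :=
  chobanyan l h0 _ (fun l' hp => four_list_signs l' (fun x hx => hl x (hp.subset hx)))

theorem sqrt_ten_lt : Real.sqrt 10 < 4 - 1 + 1 / 4 := by
  rw [Real.sqrt_lt' (by norm_num)]
  norm_num

end Vale.Agent.Lib.P262
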