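import Mathlib

/-!
# P262: the one-step lemma for vector colourings with colour space of dimension `dim E`

Let `L : E → H` be a linear contraction between finite dimensional real inner product spaces with
`dim E ≤ dim H`, `H ≠ 0`, and let `‖v‖ ≤ 1`. Then there is a unit vector `u` of `H` such that
`x ↦ L x + ⟪x, v⟫ u` is again a contraction.
-/

namespace Vale.Agent.Lib.P262.Sharp

open Finset Module
open scoped RealInnerProductSpace

variable {E H : Type*} [NormedAddCommGroup E] [InnerProductSpace ℝ E]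
  [NormedAddCommGroup H] [InnerProductSpace ℝ H]

/-- a unit vector `b` with `⟪b, L x⟫ = r ⟪w, x⟫` for all `x`, and `⟪b, L w⟫ ≤ 0` -/
lemma exists_dir [FiniteDimensional ℝ E] [FiniteDimensional ℝ H] (L : E →ₗ[ℝ] H)
    (hdim : finrank ℝ E ≤ finrank ℝ H) (w : E) (hw : w ≠ 0) :
    ∃ (b : H) (r : ℝ), ‖b‖ = 1 ∧ (∀ x, ⟪b, L x⟫ = r * ⟪w, x⟫) ∧ ⟪b, L w⟫ ≤ 0 := by
  let Ψ : H × ℝ →ₗ[ℝ] E := (LinearMap.adjoint L).coprod (LinearMap.toSpanSingleton ℝ E w)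
  have hker : LinearMap.ker Ψ ≠ ⊥ := by
    apply LinearMap.ker_ne_bot_of_finrank_lt
    rw [Module.finrank_prod, Module.finrank_self]
    omega
  obtain ⟨⟨b, r⟩, hbr, hne⟩ := (Submodule.ne_bot_iff _).1 hker
  have h0 : LinearMap.adjoint L b + r • w = 0 := by
    have : Ψ (b, r) = 0 := hbr
    simpa [Ψ, LinearMap.coprod_apply, LinearMap.toSpanSingleton_apply] using this
  have hb : b ≠ 0 := by
    intro hb
    rw [hb, map_zero, zero_add] at h0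
    have hr : r = 0 := by
      rcases smul_eq_zero.1 h0 with h | h
      · exact h
      · exact absurd h hw
    exact hne (by rw [hb, hr]; rfl)
  have hn : ‖b‖ ≠ 0 := norm_ne_zero_iff.2 hb
  have key : ∀ x, ⟪b, L x⟫ = (-r) * ⟪w, x⟫ := by
    intro x
    rw [← LinearMap.adjoint_inner_left, eq_neg_of_add_eq_zero_left h0, inner_neg_left,
      inner_smul_left]
    simp
  by_cases hs : ⟪b, L w⟫ ≤ 0
  · refine ⟨‖b‖⁻¹ • b, ‖b‖⁻¹ * (-r), ?_, ?_, ?_⟩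
    · rw [norm_smul, norm_inv, norm_norm, inv_mul_cancel₀ hn]
    · intro x
      rw [inner_smul_left, key x]
      simp [mul_assoc]
    · rw [inner_smul_left]
      simp only [conj_trivial]
      exact mul_nonpos_of_nonneg_of_nonpos (by positivity) hs
  · refine ⟨-(‖b‖⁻¹ • b), ‖b‖⁻¹ * r, ?_, ?_, ?_⟩
    · rw [norm_neg, norm_smul, norm_inv, norm_norm, inv_mul_cancel₀ hn]
    · intro x
      rw [inner_neg_left, inner_smul_left, key x]
      simp [mul_assoc]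
    · rw [inner_neg_left, inner_smul_left]
      simp only [conj_trivial]
      have : 0 ≤ ‖b‖⁻¹ * ⟪b, L w⟫ := mul_nonneg (by positivity) (le_of_lt (not_le.1 hs))
      linarith

/-- the one-step lemma -/
theorem step [FiniteDimensional ℝ E] [FiniteDimensional ℝ H] (L : E →ₗ[ℝ] H)
    (hL : ∀ x, ‖L x‖ ≤ ‖x‖) (hdim : finrank ℝ E ≤ finrank ℝ H) (hpos : 0 < finrank ℝ H)
    (v : E) (hv : ‖v‖ ≤ 1) :
    ∃ u : H, ‖u‖ = 1 ∧ ∀ x, ‖L x + ⟪x, v⟫ • u‖ ≤ ‖x‖ := by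
  by_cases hv0 : v = 0
  · have : Nontrivial H := Module.nontrivial_of_finrank_pos (R := ℝ) hpos
    obtain ⟨u, hu⟩ := exists_norm_eq H (zero_le_one' ℝ)
    exact ⟨u, hu, fun x => by simpa [hv0] using hL x⟩
  set ρ : ℝ := ‖v‖ with hρ
  have hρ0 : 0 < ρ := norm_pos_iff.2 hv0
  set w : E := ρ⁻¹ • v with hw
  have hwn : ‖w‖ = 1 := by
    rw [hw, norm_smul, norm_inv, Real.norm_eq_abs, abs_of_pos hρ0, ← hρ,
      inv_mul_cancel₀ hρ0.ne']
  have hw0 : w ≠ 0 := by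
    intro h; rw [h, norm_zero] at hwn; exact zero_ne_one hwn
  have hvw : v = ρ • w := by
    rw [hw, smul_smul, mul_inv_cancel₀ hρ0.ne', one_smul]
  obtain ⟨b, r, hb1, hbL, hbw⟩ := exists_dir L hdim w hw0
  set D : H := b - L w with hD
  have hD1 : 1 ≤ ‖D‖ := by
    have h1 : ‖D‖ ^ 2 = 1 - 2 * ⟪b, L w⟫ + ‖L w‖ ^ 2 := by
      rw [hD, norm_sub_sq_real, hb1]; ring
    have h2 : (1 : ℝ) ≤ ‖D‖ ^ 2 := by
      rw [h1]; nlinarith [sq_nonneg ‖L w‖]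
    by_contra hlt
    have hlt := not_le.1 hlt
    have h0 := norm_nonneg D
    nlinarith
  have hD0 : 0 < ‖D‖ := lt_of_lt_of_le one_pos hD1
  refine ⟨‖D‖⁻¹ • D, ?_, ?_⟩
  · rw [norm_smul, norm_inv, norm_norm, inv_mul_cancel₀ hD0.ne']
  intro x
  set s : ℝ := ⟪x, w⟫ with hs
  set x' : E := x - s • w with hx'
  set τ : ℝ := ρ * ‖D‖⁻¹ with hτ
  have hτ0 : 0 ≤ τ := by positivity
  have hτ1 : τ ≤ 1 := by
    rw [hτ, ← div_eq_mul_inv, div_le_one hD0]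
    exact hv.trans hD1
  have e1 : L x + ⟪x, v⟫ • (‖D‖⁻¹ • D) = (1 - τ) • L x + τ • (L x' + s • b) := by
    have : ⟪x, v⟫ = ρ * s := by rw [hvw, inner_smul_right]
    rw [this, hx', map_sub, map_smul, hD, hτ]
    module
  have hperp : ⟪L x', b⟫ = 0 := by
    rw [real_inner_comm, hbL, hx', inner_sub_right, inner_smul_right,
      real_inner_self_eq_norm_sq, hwn, real_inner_comm, ← hs]
    ring
  have hx'n : ‖x'‖ ^ 2 = ‖x‖ ^ 2 - s ^ 2 := by
    rw [hx', norm_sub_sq_real, inner_smul_right, ← hs, norm_smul, hwn, Real.norm_eq_abs,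
      mul_one, sq_abs]
    ring
  have h2 : ‖L x' + s • b‖ ≤ ‖x‖ := by
    have h3 : ‖L x' + s • b‖ ^ 2 = ‖L x'‖ ^ 2 + s ^ 2 := by
      rw [norm_add_sq_real, inner_smul_right, hperp, norm_smul, hb1, Real.norm_eq_abs,
        mul_one, sq_abs]
      ring
    have h4 : ‖L x'‖ ^ 2 ≤ ‖x'‖ ^ 2 := by
      have := hL x'
      have h0 := norm_nonneg (L x')
      nlinarith
    apply le_of_sq_le_sq _ (norm_nonneg _)
    rw [h3]; linarith
  rw [e1]
  calc ‖(1 - τ) • L x + τ • (L x' + s • b)‖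
      ≤ ‖(1 - τ) • L x‖ + ‖τ • (L x' + s • b)‖ := norm_add_le _ _
    _ = (1 - τ) * ‖L x‖ + τ * ‖L x' + s • b‖ := by
        rw [norm_smul, norm_smul, Real.norm_eq_abs, Real.norm_eq_abs, abs_of_nonneg hτ0,
          abs_of_nonneg (by linarith)]
    _ ≤ (1 - τ) * ‖x‖ + τ * ‖x‖ := by
        apply add_le_add
        · exact mul_le_mul_of_nonneg_left (hL x) (by linarith)
        · exact mul_le_mul_of_nonneg_left h2 hτ0
    _ = ‖x‖ := by ring

/-- The colours produced by a rule `c`: `u k = c k (u 0, …, u (k-1))`. -/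
noncomputable def col (c : (k : ℕ) → (Fin k → H) → H) : ℕ → H
  | k => c k (fun i => col c i)

omit [NormedAddCommGroup H] [InnerProductSpace ℝ H] in
lemma col_eq (c : (k : ℕ) → (Fin k → H) → H) (k : ℕ) :
    col c k = c k (fun i : Fin k => col c i) := by
  rw [col]

/-- The property required of the rule. -/
def Good (v : ℕ → E) (c : (k : ℕ) → (Fin k → H) → H) : Prop :=
  ∀ (k : ℕ) (f : Fin k → H), (∀ θ : E, ‖∑ i : Fin k, ⟪θ, v i⟫ • f i‖ ≤ ‖θ‖) →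
    ‖c k f‖ = 1 ∧ ∀ θ : E, ‖∑ i : Fin k, ⟪θ, v i⟫ • f i + ⟪θ, v k⟫ • c k f‖ ≤ ‖θ‖

theorem exists_good [FiniteDimensional ℝ E] [FiniteDimensional ℝ H]
    (hdim : finrank ℝ E ≤ finrank ℝ H) (hpos : 0 < finrank ℝ H) (v : ℕ → E)
    (hv : ∀ i, ‖v i‖ ≤ 1) : ∃ c : (k : ℕ) → (Fin k → H) → H, Good v c := by
  have key : ∀ (k : ℕ) (f : Fin k → H), ∃ u : H,
      (∀ θ : E, ‖∑ i : Fin k, ⟪θ, v i⟫ • f i‖ ≤ ‖θ‖) →
        ‖u‖ = 1 ∧ ∀ θ : E, ‖∑ i : Fin k, ⟪θ, v i⟫ • f i + ⟪θ, v k⟫ • u‖ ≤ ‖θ‖ := by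
    intro k f
    by_cases h : ∀ θ : E, ‖∑ i : Fin k, ⟪θ, v i⟫ • f i‖ ≤ ‖θ‖
    · let L : E →ₗ[ℝ] H := ∑ i : Fin k, ((innerₛₗ ℝ (v i)) : E →ₗ[ℝ] ℝ).smulRight (f i)
      have hL : ∀ θ : E, L θ = ∑ i : Fin k, ⟪θ, v i⟫ • f i := by
        intro θ
        simp only [L, LinearMap.sum_apply, LinearMap.smulRight_apply, innerₛₗ_apply_apply]
        refine sum_congr rfl fun i _ => ?_
        rw [real_inner_comm]
      obtain ⟨u, hu1, hu2⟩ := step L (fun x => by rw [hL]; exact h x) hdim hpos (v k) (hv k)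
      exact ⟨u, fun _ => ⟨hu1, fun θ => by rw [← hL]; exact hu2 θ⟩⟩
    · exact ⟨0, fun h' => absurd h' h⟩
  choose c hc using key
  exact ⟨c, hc⟩

/-- All the operators `θ ↦ ∑_{i<k} ⟪θ, v i⟫ u i` are contractions. -/
theorem norm_op_le {v : ℕ → E} {c : (k : ℕ) → (Fin k → H) → H} (hc : Good v c) :
    ∀ (k : ℕ) (θ : E), ‖∑ i ∈ range k, ⟪θ, v i⟫ • col c i‖ ≤ ‖θ‖ := by
  intro k
  induction k with
  | zero => intro θ; simp
  | succ k ih =>
    intro θ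
    have h1 : ∀ θ : E, ‖∑ i : Fin k, ⟪θ, v i⟫ • col c i‖ ≤ ‖θ‖ := by
      intro θ
      rw [Fin.sum_univ_eq_sum_range (fun i => ⟪θ, v i⟫ • col c i) k]
      exact ih θ
    have h2 := (hc k (fun i : Fin k => col c i) h1).2 θ
    rw [Fin.sum_univ_eq_sum_range (fun i => ⟪θ, v i⟫ • col c i) k, ← col_eq c k] at h2
    rw [sum_range_succ]
    exact h2

/-- The colours are unit vectors. -/
theorem norm_col {v : ℕ → E} {c : (k : ℕ) → (Fin k → H) → H} (hc : Good v c) (k : ℕ) :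
    ‖col c k‖ = 1 := by
  have h1 : ∀ θ : E, ‖∑ i : Fin k, ⟪θ, v i⟫ • col c i‖ ≤ ‖θ‖ := by
    intro θ
    rw [Fin.sum_univ_eq_sum_range (fun i => ⟪θ, v i⟫ • col c i) k]
    exact norm_op_le hc k θ
  rw [col_eq]
  exact (hc k (fun i : Fin k => col c i) h1).1

end Vale.Agent.Lib.P262.Sharp
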